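import Vale.Agent.P037.H88.Lines

/-!
A copy of a rigid pattern in the host uses every extra position at most once, and its block lies in
the old lines.
-/

namespace Vale.Agent.P037G

open Vale.Agent.P037.Mini
open Vale.Agent.P037 (Rigid)

variable {L m q t : ℕ}

/-- a rigid pattern has no large part with the structure of an equality relation -/
theorem eq_contra {k : ℕ} {H : Matrix (Fin k) (Fin k) Bool} (ht : 1 ≤ t) (hH : Rigid t H)
    {α : Type*} {u v : ℕ} (hu : u + 3 * t ≤ k) (hv : v + t + 1 ≤ k)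
    (φ : Fin k → Option α) (ψ : Fin k → α)
    (hE : ∀ i j : Fin k, u ≤ (i : ℕ) → (i : ℕ) < u + 3 * t → v ≤ (j : ℕ) → (j : ℕ) < v + t + 1 →
      (H i j = true ↔ φ i = some (ψ j))) : False := by
  have inj : ∀ i i' : Fin k, u ≤ (i : ℕ) → (i : ℕ) < u + 3 * t → u ≤ (i' : ℕ) →
      (i' : ℕ) < u + 3 * t → φ i = φ i' → i = i' := by
    intro i i' h1 h2 h3 h4 h5
    by_contra hne
    obtain ⟨⟨j, hj1, hj2, hj3⟩, _⟩ := hH i i' hne v (by omega)
    apply hj3
    apply Bool.eq_iff_iff.2
    rw [hE i j h1 h2 hj1 (by omega), hE i' j h3 h4 hj1 (by omega), h5]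
  let j0 : Fin k := ⟨v, by omega⟩
  let j1 : Fin k := ⟨v + 1, by omega⟩
  have hj : j0 ≠ j1 := by
    intro h
    have := congrArg Fin.val h
    simp only [j0, j1] at this
    omega
  have get : ∀ n : ℕ, n < 3 → ∃ i : Fin k, u + n * t ≤ (i : ℕ) ∧ (i : ℕ) < u + n * t + t ∧
      (φ i = some (ψ j0) ∨ φ i = some (ψ j1)) := by
    intro n hn
    have hnt : n * t ≤ 2 * t := Nat.mul_le_mul_right _ (by omega)
    obtain ⟨_, ⟨i, hi1, hi2, hi3⟩⟩ := hH j0 j1 hj (u + n * t) (by omega)
    refine ⟨i, hi1, hi2, ?_⟩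
    rw [← hE i j0 (by omega) (by omega) (by simp only [j0]; omega) (by simp only [j0]; omega),
      ← hE i j1 (by omega) (by omega) (by simp only [j1]; omega) (by simp only [j1]; omega)]
    by_contra hcon
    push Not at hcon
    apply hi3
    rw [Bool.eq_false_iff.2 hcon.1, Bool.eq_false_iff.2 hcon.2]
  obtain ⟨a, ha1, ha2, ha3⟩ := get 0 (by omega)
  obtain ⟨b, hb1, hb2, hb3⟩ := get 1 (by omega)
  obtain ⟨c, hc1, hc2, hc3⟩ := get 2 (by omega)
  have hab : φ a ≠ φ b := fun h => by
    have := inj a b (by omega) (by omega) (by omega) (by omega) h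
    rw [this] at ha2
    omega
  have hac : φ a ≠ φ c := fun h => by
    have := inj a c (by omega) (by omega) (by omega) (by omega) h
    rw [this] at ha2
    omega
  have hbc : φ b ≠ φ c := fun h => by
    have := inj b c (by omega) (by omega) (by omega) (by omega) h
    rw [this] at hb2
    omega
  rcases ha3 with ha | ha <;> rcases hb3 with hb | hb <;> rcases hc3 with hc | hc <;>
    first
      | exact hab (ha.trans hb.symm)
      | exact hac (ha.trans hc.symm)
      | exact hbc (hb.trans hc.symm)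

/-- the labels of the equality structure -/
def ph (f : Bool) (x : Row L m) : Option (ℕ × ℕ) :=
  match x.cls with
  | .a q => if q.1 = 0 then some (qu q, 0) else some (sel f q, 0)
  | .b q => if q.1 = 0 then some (qv q, 0) else none
  | .act s => if lev L s < L then some (lev L s, nd L m s x.par) else none
  | .S => none
  | .T => none

/-- the labels of the columns, for rows in region `r` -/
def ps (r : ℕ) (y : Row L m) : ℕ × ℕ :=
  match y.cls with
  | .act s => if r = 3 then (lev L s, nd L m s y.par) else (tc L m s y.par, 0)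
  | _ => (0, 0)

theorem adj_label (f : Bool) {x y : Row L m} (hx : x.reg ≤ 3) (hy : y.reg = 3) :
    adj f x y ↔ ph f x = some (ps x.reg y) := by
  obtain ⟨c, g⟩ := x
  obtain ⟨d, g'⟩ := y
  cases d <;> simp only [Row.reg] at hy <;> try omega
  rename_i s'
  cases c with
  | a q =>
    simp only [adj, ph, ps, Row.reg, pa, okC, okZ]
    by_cases h : q.1 = 0
    · simp [h, eq_comm]
    · simp [h, eq_comm]
  | b q =>
    simp only [adj, ph, ps, Row.reg, pb, okC]
    by_cases h : q.1 = 0
    · simp [h, eq_comm]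
    · simp [h]
  | act s =>
    simp only [adj, ph, ps, Row.reg]
    by_cases h : lev L s < L
    · simp [h]
    · simp [h]
  | S => simp only [Row.reg] at hx; omega
  | T => simp only [Row.reg] at hx; omega

section

variable {P P' : Fin (q + 1)} {f : Bool} {H : Matrix (Fin (q + 5)) (Fin (q + 5)) Bool}
  {R : Fin (q + 5) → Ln L m q P} {C : Fin (q + 5) → Ln L m q P'}

theorem old_between {x y z : Ln L m q P} {x' z' : Row L m} (hx : emb x' = x) (hz : emb z' = z)
    (h1 : x ≤ y) (h2 : y ≤ z) : ∃ y', emb y' = y ∧ x'.reg ≤ y'.reg ∧ y'.reg ≤ z'.reg := by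
  have n1 : nu P x.cls ≤ nu P y.cls := by
    rcases h1.eq_or_lt with h | h
    · rw [h]
    · exact Ln.nu_le h
  have n2 : nu P y.cls ≤ nu P z.cls := by
    rcases h2.eq_or_lt with h | h
    · rw [h]
    · exact Ln.nu_le h
  have e1 : nu P x.cls = P := by rw [← hx]; rfl
  have e2 : nu P z.cls = P := by rw [← hz]; rfl
  obtain ⟨y', hy⟩ := exists_emb (x := y) (P := P) (by omega)
  refine ⟨y', hy, ?_, ?_⟩
  · rcases h1.eq_or_lt with h | h
    · rw [← hx, ← hy] at h
      rw [emb_injective h]
    · rw [← hx, ← hy, emb_lt] at h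
      exact reg_le_of_lt h
  · rcases h2.eq_or_lt with h | h
    · rw [← hz, ← hy] at h
      rw [emb_injective h]
    · rw [← hz, ← hy, emb_lt] at h
      exact reg_le_of_lt h

theorem reg_pos (x : Row L m) : 1 ≤ x.reg := by
  obtain ⟨c, g⟩ := x
  cases c <;> simp [Row.reg]

theorem act_of_reg {x : Row L m} (h : x.reg = 3) : ∃ s, x.cls = .act s := by
  obtain ⟨c, g⟩ := x
  cases c <;> simp only [Row.reg] at h <;> first | omega | exact ⟨_, rfl⟩

/-- type of an active class as seen by the extra lines -/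
def ty (x : Row L m) : Fin 4 :=
  match x.cls with
  | .act s => ⟨2 * (lev L s % 2) + (if (s : ℕ) < L then 1 else 0), by split_ifs <;> omega⟩
  | _ => 0

theorem rl_of_ty {k : Fin 3} {x y : Row L m} (hx : x.reg = 3) (hy : y.reg = 3)
    (h : ty x = ty y) : rl k x.cls = rl k y.cls := by
  obtain ⟨s, hs⟩ := act_of_reg hx
  obtain ⟨s', hs'⟩ := act_of_reg hy
  have h' := congrArg Fin.val h
  simp only [ty, hs, hs'] at h'
  simp only [hs, hs', rl]
  have e1 : lev L s % 2 = lev L s' % 2 := by
    split_ifs at h' <;> omega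
  have e2 : (s : ℕ) < L ↔ (s' : ℕ) < L := by
    split_ifs at h' <;> omega
  simp only [e1, e2]

/-- columns on which two lines of one extra position differ are active -/
theorem act_of_diff (h : ∀ i j, base f H (R i) (C j) ↔ H i j = true) {i i' : Fin (q + 5)}
    {e : Fin q} {k k' : Fin 3} (h1 : (R i).cls = .ex e k) (h2 : (R i').cls = .ex e k')
    {j : Fin (q + 5)} (hj : H i j ≠ H i' j) : ∃ y : Row L m, emb y = C j ∧ y.reg = 3 := by
  have key : ¬ (base f H (R i) (C j) ↔ base f H (R i') (C j)) := by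
    rw [h i j, h i' j]
    intro hh
    exact hj (Bool.eq_iff_iff.2 hh)
  unfold base at key
  rw [h1, h2] at key
  obtain ⟨y, hy⟩ : ∃ y, y = C j := ⟨_, rfl⟩
  rw [← hy] at key ⊢
  obtain ⟨d, g⟩ := y
  cases d with
  | ex e' k'' => exact absurd Iff.rfl key
  | old d =>
    cases d with
    | a q => exact absurd Iff.rfl key
    | b q => exact absurd Iff.rfl key
    | act s => exact ⟨⟨.act s, g⟩, rfl, rfl⟩
    | S => exact absurd Iff.rfl key
    | T => exact absurd Iff.rfl key

/-- rows on which two active columns of one type differ are low -/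
theorem low_of_diff (h : ∀ i j, base f H (R i) (C j) ↔ H i j = true) {j j' : Fin (q + 5)}
    {y y' : Row L m} (hy : emb y = C j) (hy' : emb y' = C j') (h3 : y.reg = 3) (h3' : y'.reg = 3)
    (hty : ty y = ty y') {i : Fin (q + 5)} (hi : H i j ≠ H i j') :
    ∃ x : Row L m, emb x = R i ∧ x.reg ≤ 3 := by
  have key : ¬ (base f H (R i) (C j) ↔ base f H (R i) (C j')) := by
    rw [h i j, h i j']
    intro hh
    exact hi (Bool.eq_iff_iff.2 hh)
  rw [← hy, ← hy'] at key
  obtain ⟨s, hs⟩ := act_of_reg h3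
  obtain ⟨s', hs'⟩ := act_of_reg h3'
  obtain ⟨x, hx⟩ : ∃ x, x = R i := ⟨_, rfl⟩
  rw [← hx] at key ⊢
  obtain ⟨c, g⟩ := x
  cases c with
  | ex e k =>
    exfalso
    apply key
    simp only [base, emb]
    rw [rl_of_ty h3 h3' hty]
  | old c =>
    cases c with
    | a q => exact ⟨⟨.a q, g⟩, rfl, by simp [Row.reg]⟩
    | b q => exact ⟨⟨.b q, g⟩, rfl, by simp [Row.reg]⟩
    | act s => exact ⟨⟨.act s, g⟩, rfl, by simp [Row.reg]⟩
    | S =>
      exfalso
      apply key
      simp only [base, emb, hs, hs', adj]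
    | T =>
      exfalso
      apply key
      simp only [base, emb, hs, hs', adj]

/-- no two rows of a copy lie in the same extra position -/
theorem no_two (ht : 1 ≤ t) (hk : 11 * t ≤ q + 5) (hH : Rigid t H) (hR : StrictMono R)
    (hC : StrictMono C) (h : ∀ i j, base f H (R i) (C j) ↔ H i j = true) {i i' : Fin (q + 5)}
    (hne : i ≠ i') {e : Fin q} {k k' : Fin 3} (h1 : (R i).cls = .ex e k)
    (h2 : (R i').cls = .ex e k') : False := by
  -- the columns from `t - 1` to `q + 5 - t` are active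
  have cact : ∀ j : Fin (q + 5), t - 1 ≤ (j : ℕ) → (j : ℕ) ≤ q + 5 - t →
      ∃ y : Row L m, emb y = C j ∧ y.reg = 3 := by
    intro j hj1 hj2
    obtain ⟨⟨j1, _, hj12, hj13⟩, _⟩ := hH i i' hne 0 (by omega)
    obtain ⟨⟨j2, hj21, _, hj23⟩, _⟩ := hH i i' hne (q + 5 - t) (by omega)
    obtain ⟨y1, hy1, r1⟩ := act_of_diff h h1 h2 hj13
    obtain ⟨y2, hy2, r2⟩ := act_of_diff h h1 h2 hj23
    have le1 : C j1 ≤ C j := hC.monotone (by rw [Fin.le_def]; omega)
    have le2 : C j ≤ C j2 := hC.monotone (by rw [Fin.le_def]; omega)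
    obtain ⟨y, hy, r3, r4⟩ := old_between hy1 hy2 le1 le2
    exact ⟨y, hy, by omega⟩
  -- two of the first five of them have the same type
  have c5 : ∀ n : Fin 5, ∃ y : Row L m, emb y = C ⟨t - 1 + n, by omega⟩ ∧ y.reg = 3 := by
    intro n
    exact cact _ (by simp only; omega) (by simp only; omega)
  choose y5 hy5 r5 using c5
  obtain ⟨a, b, hab, hty⟩ := Fintype.exists_ne_map_eq_of_card_lt (fun n => ty (y5 n))
    (by simp only [Fintype.card_fin]; omega)
  have hjab : (⟨t - 1 + a, by omega⟩ : Fin (q + 5)) ≠ ⟨t - 1 + b, by omega⟩ := by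
    intro hh
    apply hab
    have := congrArg Fin.val hh
    simp only at this
    apply Fin.ext
    omega
  -- the rows from `t - 1` to `q + 5 - t` are low
  have rlow : ∀ i : Fin (q + 5), t - 1 ≤ (i : ℕ) → (i : ℕ) ≤ q + 5 - t →
      ∃ x : Row L m, emb x = R i ∧ x.reg ≤ 3 := by
    intro i0 hi1 hi2
    obtain ⟨_, ⟨i1, _, hi12, hi13⟩⟩ := hH _ _ hjab 0 (by omega)
    obtain ⟨_, ⟨i2, hi21, _, hi23⟩⟩ := hH _ _ hjab (q + 5 - t) (by omega)
    obtain ⟨x1, hx1, r1⟩ := low_of_diff h (hy5 a) (hy5 b) (r5 a) (r5 b) hty hi13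
    obtain ⟨x2, hx2, r2⟩ := low_of_diff h (hy5 a) (hy5 b) (r5 a) (r5 b) hty hi23
    have le1 : R i1 ≤ R i0 := hR.monotone (by rw [Fin.le_def]; omega)
    have le2 : R i0 ≤ R i2 := hR.monotone (by rw [Fin.le_def]; omega)
    obtain ⟨y, hy, r3, r4⟩ := old_between hx1 hx2 le1 le2
    exact ⟨y, hy, by omega⟩
  -- the final contradiction from `3 t` rows in one region
  have fin : ∀ (r u : ℕ), t - 1 ≤ u → u + 3 * t ≤ q + 5 - t + 1 →
      (∀ i : Fin (q + 5), u ≤ (i : ℕ) → (i : ℕ) < u + 3 * t →
        ∃ x : Row L m, emb x = R i ∧ x.reg = r ∧ x.reg ≤ 3) → False := by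
    intro r u hu1 hu2 hrow
    classical
    let X : Fin (q + 5) → Row L m := fun i => if hx : ∃ x : Row L m, emb x = R i then hx.choose
      else (y5 0)
    let Y : Fin (q + 5) → Row L m := fun i => if hx : ∃ x : Row L m, emb x = C i then hx.choose
      else (y5 0)
    have hX : ∀ i x, emb x = R i → X i = x := by
      intro i x hx
      have he : ∃ x : Row L m, emb x = R i := ⟨x, hx⟩
      simp only [X, dif_pos he]
      exact emb_injective (he.choose_spec.trans hx.symm)
    have hY : ∀ i x, emb x = C i → Y i = x := by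
      intro i x hx
      have he : ∃ x : Row L m, emb x = C i := ⟨x, hx⟩
      simp only [Y, dif_pos he]
      exact emb_injective (he.choose_spec.trans hx.symm)
    refine eq_contra ht hH (u := u) (v := t - 1) (by omega) (by omega)
      (fun i => ph f (X i)) (fun j => ps r (Y j)) ?_
    intro i j hi1 hi2 hj1 hj2
    obtain ⟨x, hx, hr, hr3⟩ := hrow i hi1 hi2
    obtain ⟨y, hy, hry⟩ := cact j hj1 (by omega)
    show H i j = true ↔ ph f (X i) = some (ps r (Y j))
    rw [hX i x hx, hY j y hy, ← h i j, ← hx, ← hy, base_emb, adj_label f hr3 hry, hr]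
  obtain ⟨x1, hx1, s1⟩ := rlow ⟨t - 1 + 3 * t, by omega⟩ (by simp only; omega)
    (by simp only; omega)
  obtain ⟨x2, hx2, s2⟩ := rlow ⟨t - 1 + 6 * t, by omega⟩ (by simp only; omega)
    (by simp only; omega)
  have mono : ∀ {i j : Fin (q + 5)} {x y : Row L m}, i ≤ j → emb x = R i → emb y = R j →
      x.reg ≤ y.reg := by
    intro i j x y hij hx hy
    obtain ⟨z, hz, h5, h6⟩ := old_between hx hy (hR.monotone hij) le_rfl
    rw [← hy] at hz
    rw [← emb_injective hz]
    exact h5
  by_cases c1 : x1.reg = 1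
  · refine fin 1 (t - 1) le_rfl (by omega) fun i hi1 hi2 => ?_
    obtain ⟨x, hx, hr⟩ := rlow i hi1 (by omega)
    have := mono (by rw [Fin.le_def]; simp only; omega) hx hx1
    have := reg_pos x
    exact ⟨x, hx, by omega, hr⟩
  · by_cases c2 : x2.reg ≤ 2
    · refine fin 2 (t - 1 + 3 * t) (by omega) (by omega) fun i hi1 hi2 => ?_
      obtain ⟨x, hx, hr⟩ := rlow i (by omega) (by omega)
      have h5 := mono (j := ⟨t - 1 + 6 * t, by omega⟩) (by rw [Fin.le_def]; simp only; omega) hx hx2
      have h6 := mono (i := ⟨t - 1 + 3 * t, by omega⟩) (by rw [Fin.le_def]; simp only; omega) hx1 hx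
      have := reg_pos x1
      exact ⟨x, hx, by omega, hr⟩
    · refine fin 3 (t - 1 + 6 * t) (by omega) (by omega) fun i hi1 hi2 => ?_
      obtain ⟨x, hx, hr⟩ := rlow i (by omega) (by omega)
      have h6 := mono (i := ⟨t - 1 + 6 * t, by omega⟩) (by rw [Fin.le_def]; simp only; omega) hx2 hx
      exact ⟨x, hx, by omega, hr⟩

/-- the block of a copy lies in the old lines -/
theorem block_old (hR : StrictMono R)
    (hno : ∀ {i i' : Fin (q + 5)} {e : Fin q} {k k' : Fin 3}, i ≠ i' →
      (R i).cls = .ex e k → (R i').cls = .ex e k' → False) (i : Fin 5) :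
    ∃ x : Row L m, emb x = R (fi P i) := by
  apply exists_emb
  -- the position strictly increases outside of the old lines
  have step : ∀ i j : Fin (q + 5), i < j → nu P (R i).cls ≠ P ∨ nu P (R j).cls ≠ P →
      nu P (R i).cls < nu P (R j).cls := by
    intro i j hij hor
    have hle := Ln.nu_le (hR hij)
    rcases hle.eq_or_lt with he | hl
    · exfalso
      obtain ⟨ci, gi⟩ : ∃ c, c = (R i).cls := ⟨_, rfl⟩
      obtain ⟨cj, gj⟩ : ∃ c, c = (R j).cls := ⟨_, rfl⟩
      rw [← gi, ← gj] at he hor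
      cases ci with
      | old c =>
        have : nu P (.old c : Cl L q) = P := rfl
        omega
      | ex e k =>
        cases cj with
        | old c =>
          have : nu P (.old c : Cl L q) = P := rfl
          omega
        | ex e' k' =>
          have hee := nu_ex_inj he
          subst hee
          exact hno hij.ne gi.symm gj.symm
    · exact hl
  have up : ∀ n : ℕ, ∀ hn : (P : ℕ) + 4 + n < q + 5,
      (P : ℕ) < nu P (R ⟨P + 4, by omega⟩).cls → (P : ℕ) + 1 + n ≤
        nu P (R ⟨P + 4 + n, hn⟩).cls := by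
    intro n
    induction n with
    | zero => intro _ h; simpa using h
    | succ n ih =>
      intro hn h
      have h1 := ih (by omega) h
      have h2 := step ⟨P + 4 + n, by omega⟩ ⟨P + 4 + (n + 1), hn⟩ (by
        rw [Fin.lt_def]; simp only; omega) (Or.inl (by omega))
      omega
  have dn : ∀ n : ℕ, ∀ hn : n ≤ (P : ℕ),
      nu P (R ⟨P, by omega⟩).cls < (P : ℕ) → n ≤ nu P (R ⟨n, by omega⟩).cls := by
    intro n
    induction n with
    | zero => intro _ _; exact Nat.zero_le _
    | succ n ih =>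
      intro hn h
      have h1 := ih (by omega) h
      have h3 : nu P (R ⟨n, by omega⟩).cls ≤ nu P (R ⟨P, by omega⟩).cls := by
        apply Ln.nu_le
        apply hR
        rw [Fin.lt_def]
        simp only
        omega
      have h2 := step ⟨n, by omega⟩ ⟨n + 1, by omega⟩ (by
        rw [Fin.lt_def]; simp only; omega) (Or.inl (by omega))
      omega
  have hP : (P : ℕ) ≤ q := by omega
  have h1 : ¬ ((P : ℕ) < nu P (R ⟨P + 4, by omega⟩).cls) := by
    intro hlt
    have := up (q - P) (by omega) hlt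
    have h2 := nu_le (P := P) (R ⟨P + 4 + (q - P), by omega⟩).cls
    omega
  have h2 : ¬ (nu P (R ⟨P, by omega⟩).cls < (P : ℕ)) := by
    intro hlt
    have := dn P le_rfl hlt
    omega
  have h3 : nu P (R (fi P i)).cls ≤ nu P (R ⟨P + 4, by omega⟩).cls := by
    rcases eq_or_ne (fi P i) ⟨P + 4, by omega⟩ with he | he
    · rw [he]
    · apply Ln.nu_le
      apply hR
      rw [Fin.lt_def]
      have : ((fi P i : Fin (q + 5)) : ℕ) ≠ P + 4 := fun hh => he (Fin.ext hh)
      simp only [fi] at this ⊢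
      omega
  have h4 : nu P (R ⟨P, by omega⟩).cls ≤ nu P (R (fi P i)).cls := by
    rcases eq_or_ne (fi P i) ⟨P, by omega⟩ with he | he
    · rw [he]
    · apply Ln.nu_le
      apply hR
      rw [Fin.lt_def]
      have : ((fi P i : Fin (q + 5)) : ℕ) ≠ P := fun hh => he (Fin.ext hh)
      simp only [fi] at this ⊢
      omega
  omega

theorem rigid_transpose {k : ℕ} {H : Matrix (Fin k) (Fin k) Bool} (hH : Rigid t H) :
    Rigid t H.transpose := by
  intro i i' hne u hu
  exact ⟨(hH i i' hne u hu).2, (hH i i' hne u hu).1⟩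

/-- the leaf lines of a copy -/
theorem copy_leaf_gen (ht : 1 ≤ t) (hk : 11 * t ≤ q + 5) (hH : Rigid t H)
    (hF : ∀ i j, H (fi P i) (fi P' j) = pat i j) (hR : StrictMono R) (hC : StrictMono C)
    (h : ∀ i j, base f H (R i) (C j) ↔ H i j = true) :
    ∃ p p' : Fin (2 ^ L * m), R (fi P 3) = emb ⟨.act ⟨L, by omega⟩, p⟩ ∧
      C (fi P' 3) = emb ⟨.act ⟨L, by omega⟩, p'⟩ ∧ (p : ℕ) / m = (p' : ℕ) / m := by
  have h' : ∀ i j, base (!f) H.transpose (C i) (R j) ↔ H.transpose i j = true := by
    intro i j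
    rw [← base_symm]
    exact h j i
  have hr := block_old hR (fun {i i' e k k'} hne h1 h2 => no_two ht hk hH hR hC h hne h1 h2)
  have hc := block_old hC
    (fun {i i' e k k'} hne h1 h2 => no_two ht hk (rigid_transpose hH) hC hR h' hne h1 h2)
  choose r hr using hr
  choose c hc using hc
  have mr : StrictMono r := fun i j hij => by
    rw [← emb_lt (q := q) (P := P), hr, hr]
    apply hR
    rw [Fin.lt_def]
    simp only [fi]
    have : (i : ℕ) < j := hij
    omega
  have mc : StrictMono c := fun i j hij => by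
    rw [← emb_lt (q := q) (P := P'), hc, hc]
    apply hC
    rw [Fin.lt_def]
    simp only [fi]
    have : (i : ℕ) < j := hij
    omega
  obtain ⟨p, p', h1, h2, h3⟩ := copy_leaf (f := f) mr mc (fun i j => by
    rw [← base_emb (P := P) (P' := P') f H, hr, hc, h, hF])
  exact ⟨p, p', by rw [← hr, h1], by rw [← hc, h2], h3⟩

end

end Vale.Agent.P037G
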