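import Vale.Agent.P037.H88.Defs
import Mathlib.Data.Set.Card.Arithmetic
import Mathlib.Data.Matrix.Basic

/-!
Almost every binary matrix has a block `H5` and is rigid.
-/

namespace Vale.Agent.P037C

open Vale.Agent.P037 (Rigid HasBlock H5)

/-! ### rigidity -/

section rigid

variable {k t : ℕ}

/-- the matrices in which the rows `i`, `i'` agree on an interval -/
def ag (t : ℕ) (i i' : Fin k) (u : ℕ) : Set (Matrix (Fin k) (Fin k) Bool) :=
  {H | ∀ j : Fin k, u ≤ (j : ℕ) → (j : ℕ) < u + t → H i j = H i' j}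

theorem card_ag {i i' : Fin k} (hne : i ≠ i') {u : ℕ} (hu : u + t ≤ k) :
    (ag t i i' u).ncard * 2 ^ t ≤ 2 ^ (k * k) := by
  classical
  let F : (ag t i i' u) × (Fin t → Bool) → Matrix (Fin k) (Fin k) Bool := fun z a b =>
    if h : a = i' ∧ u ≤ (b : ℕ) ∧ (b : ℕ) < u + t then z.2 ⟨b - u, by omega⟩ else z.1.1 a b
  have hF : Function.Injective F := by
    rintro ⟨⟨H, hH⟩, v⟩ ⟨⟨G, hG⟩, w⟩ h
    have hv : v = w := by
      funext x
      have h1 := congrFun (congrFun h i') ⟨u + x, by omega⟩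
      simp only [F] at h1
      rw [dif_pos (by simp), dif_pos (by simp)] at h1
      simpa using h1
    have hi : ∀ b, H i b = G i b := by
      intro b
      have h1 := congrFun (congrFun h i) b
      simp only [F] at h1
      rwa [dif_neg (by tauto), dif_neg (by tauto)] at h1
    have hHG : H = G := by
      funext a b
      by_cases hab : a = i' ∧ u ≤ (b : ℕ) ∧ (b : ℕ) < u + t
      · rw [hab.1, ← hH b hab.2.1 hab.2.2, ← hG b hab.2.1 hab.2.2, hi b]
      · have h1 := congrFun (congrFun h a) b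
        simp only [F] at h1
        rwa [dif_neg hab, dif_neg hab] at h1
    subst hv
    subst hHG
    rfl
  have h1 := Nat.card_le_card_of_injective F hF
  rw [Nat.card_prod, Nat.card_coe_set_eq] at h1
  have h2 : Nat.card (Fin t → Bool) = 2 ^ t := by
    simp [Nat.card_eq_fintype_card]
  have h3 : Nat.card (Matrix (Fin k) (Fin k) Bool) = 2 ^ (k * k) := by
    unfold Matrix
    simp [Nat.card_eq_fintype_card, pow_mul]
  rwa [h2, h3] at h1

theorem card_ag_tr {i i' : Fin k} (hne : i ≠ i') {u : ℕ} (hu : u + t ≤ k) :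
    (Matrix.transpose ⁻¹' (ag t i i' u)).ncard * 2 ^ t ≤ 2 ^ (k * k) := by
  have h1 : (Matrix.transpose ⁻¹' (ag t i i' u)).ncard = (ag t i i' u).ncard := by
    apply Set.ncard_congr (fun H _ => H.transpose)
    · intro H hH
      exact hH
    · intro H G _ _ h
      exact Matrix.transpose_injective h
    · intro G hG
      exact ⟨G.transpose, by simpa using hG, by simp⟩
  rw [h1]
  exact card_ag hne hu

theorem not_rigid_sub (t : ℕ) : {H : Matrix (Fin k) (Fin k) Bool | ¬ Rigid t H} ⊆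
    ⋃ z ∈ (Finset.univ : Finset (Fin k × Fin k × Fin (k + 1))).filter
      (fun z => z.1 ≠ z.2.1 ∧ (z.2.2 : ℕ) + t ≤ k),
      (ag t z.1 z.2.1 z.2.2 ∪ Matrix.transpose ⁻¹' (ag t z.1 z.2.1 z.2.2)) := by
  intro H hH
  simp only [Set.mem_ofPred_eq, Rigid] at hH
  push Not at hH
  obtain ⟨i, i', hne, u, hu, hor⟩ := hH
  simp only [Set.mem_iUnion]
  refine ⟨(i, i', ⟨u, by omega⟩), by simp [hne, hu], ?_⟩
  by_cases h1 : ∃ j : Fin k, u ≤ (j : ℕ) ∧ (j : ℕ) < u + t ∧ H i j ≠ H i' j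
  · right
    intro j hj1 hj2
    exact hor h1 j hj1 hj2
  · left
    push Not at h1
    exact h1

theorem card_not_rigid (t : ℕ) :
    {H : Matrix (Fin k) (Fin k) Bool | ¬ Rigid t H}.ncard * 2 ^ t ≤
      (k * k * (k + 1)) * (2 * 2 ^ (k * k)) := by
  classical
  set Z := (Finset.univ : Finset (Fin k × Fin k × Fin (k + 1))).filter
      (fun z => z.1 ≠ z.2.1 ∧ (z.2.2 : ℕ) + t ≤ k) with hZ
  have h1 := Set.ncard_le_ncard (not_rigid_sub (k := k) t) (Set.toFinite _)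
  have h2 : (⋃ z ∈ Z, (ag t z.1 z.2.1 z.2.2 ∪
      Matrix.transpose ⁻¹' (ag t z.1 z.2.1 z.2.2)) : Set (Matrix (Fin k) (Fin k) Bool)).ncard ≤
      ∑ z ∈ Z, (ag t z.1 z.2.1 z.2.2 ∪
      Matrix.transpose ⁻¹' (ag t z.1 z.2.1 z.2.2) : Set (Matrix (Fin k) (Fin k) Bool)).ncard :=
    Finset.set_ncard_biUnion_le _ _
  have h3 : ∀ z ∈ Z, (ag t z.1 z.2.1 z.2.2 ∪
      Matrix.transpose ⁻¹' (ag t z.1 z.2.1 z.2.2) : Set (Matrix (Fin k) (Fin k) Bool)).ncard *
        2 ^ t ≤ 2 * 2 ^ (k * k) := by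
    intro z hz
    simp only [hZ, Finset.mem_filter, Finset.mem_univ, true_and] at hz
    have h4 := Set.ncard_union_le (ag t z.1 z.2.1 z.2.2)
      (Matrix.transpose ⁻¹' (ag t z.1 z.2.1 z.2.2))
    have h5 := card_ag hz.1 hz.2
    have h6 := card_ag_tr hz.1 hz.2
    calc _ ≤ ((ag t z.1 z.2.1 z.2.2).ncard +
          (Matrix.transpose ⁻¹' (ag t z.1 z.2.1 z.2.2)).ncard) * 2 ^ t :=
          Nat.mul_le_mul_right _ h4
      _ = (ag t z.1 z.2.1 z.2.2).ncard * 2 ^ t +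
          (Matrix.transpose ⁻¹' (ag t z.1 z.2.1 z.2.2)).ncard * 2 ^ t := by ring
      _ ≤ 2 ^ (k * k) + 2 ^ (k * k) := add_le_add h5 h6
      _ = _ := by ring
  have h7 : Z.card ≤ k * k * (k + 1) := by
    refine (Finset.card_filter_le _ _).trans (le_of_eq ?_)
    simp only [Finset.card_univ, Fintype.card_prod, Fintype.card_fin]
    ring
  calc _ ≤ (∑ z ∈ Z, (ag t z.1 z.2.1 z.2.2 ∪
      Matrix.transpose ⁻¹' (ag t z.1 z.2.1 z.2.2) :
        Set (Matrix (Fin k) (Fin k) Bool)).ncard) * 2 ^ t :=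
        Nat.mul_le_mul_right _ (h1.trans h2)
    _ = ∑ z ∈ Z, (ag t z.1 z.2.1 z.2.2 ∪
      Matrix.transpose ⁻¹' (ag t z.1 z.2.1 z.2.2) :
        Set (Matrix (Fin k) (Fin k) Bool)).ncard * 2 ^ t := Finset.sum_mul _ _ _
    _ ≤ ∑ _z ∈ Z, 2 * 2 ^ (k * k) := Finset.sum_le_sum h3
    _ = Z.card * (2 * 2 ^ (k * k)) := by rw [Finset.sum_const, smul_eq_mul]
    _ ≤ _ := Nat.mul_le_mul_right _ h7

end rigid

/-! ### blocks -/

section block

variable {k : ℕ}

/-- entries outside of the blocks -/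
abbrev Out (k s : ℕ) : Type := {z : Fin k × Fin k // ¬ ((z.1 : ℕ) < 5 * s ∧ (z.2 : ℕ) < 5 * s)}

theorem card_out {s : ℕ} (hs : 5 * s ≤ k) :
    Nat.card (Out k s) + 5 * s * (5 * s) = k * k := by
  classical
  have h1 : Nat.card {z : Fin k × Fin k // ((z.1 : ℕ) < 5 * s ∧ (z.2 : ℕ) < 5 * s)} =
      5 * s * (5 * s) := by
    let e : {z : Fin k × Fin k // ((z.1 : ℕ) < 5 * s ∧ (z.2 : ℕ) < 5 * s)} ≃
        Fin (5 * s) × Fin (5 * s) :=
      { toFun := fun z => (⟨z.1.1, z.2.1⟩, ⟨z.1.2, z.2.2⟩)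
        invFun := fun z => ⟨(⟨z.1, by omega⟩, ⟨z.2, by omega⟩), z.1.2, z.2.2⟩
        left_inv := fun z => rfl
        right_inv := fun z => rfl }
    rw [Nat.card_congr e]
    simp
  have h2 := Nat.card_congr (Equiv.sumCompl (fun z : Fin k × Fin k =>
    ((z.1 : ℕ) < 5 * s ∧ (z.2 : ℕ) < 5 * s)))
  rw [Nat.card_sum, h1, Nat.card_prod, Nat.card_fin] at h2
  rw [← h2, add_comm]

theorem card_mat5 : Nat.card (Fin 5 → Fin 5 → Bool) = 2 ^ 25 := by
  rw [Nat.card_fun, Nat.card_fun, Nat.card_eq_fintype_card, Fintype.card_bool, Nat.card_fin,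
    ← pow_mul]

theorem card_ne_H5 : Nat.card {M : Matrix (Fin 5) (Fin 5) Bool // M ≠ H5} = 2 ^ 25 - 1 := by
  classical
  have h1 := Nat.card_congr (Equiv.sumCompl (fun M : Matrix (Fin 5) (Fin 5) Bool => M = H5))
  have h2 : Nat.card (Matrix (Fin 5) (Fin 5) Bool) = 2 ^ 25 := card_mat5
  have h3 : Nat.card {M : Matrix (Fin 5) (Fin 5) Bool // M = H5} = 1 := Nat.card_unique
  rw [Nat.card_sum, h2, h3] at h1
  exact (Nat.eq_sub_of_add_eq' h1)

theorem card_not_block {s : ℕ} (hs : 5 * s ≤ k) :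
    {H : Matrix (Fin k) (Fin k) Bool | ¬ HasBlock H}.ncard * 2 ^ (25 * (s * s)) ≤
      (2 ^ 25 - 1) ^ (s * s) * 2 ^ (k * k) := by
  classical
  let F : {H : Matrix (Fin k) (Fin k) Bool | ¬ HasBlock H} →
      (Fin s × Fin s → {M : Matrix (Fin 5) (Fin 5) Bool // M ≠ H5}) × (Out k s → Bool) := fun H =>
    (fun z => ⟨fun i j => H.1 ⟨5 * z.1 + i, by omega⟩ ⟨5 * z.2 + j, by omega⟩, fun h => by
      apply H.2
      exact ⟨5 * z.1, 5 * z.2, by omega, by omega, fun i j => congrFun (congrFun h i) j⟩⟩,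
      fun w => H.1 w.1.1 w.1.2)
  have hF : Function.Injective F := by
    rintro ⟨H, hH⟩ ⟨G, hG⟩ h
    have h1 : ∀ z, (F ⟨H, hH⟩).1 z = (F ⟨G, hG⟩).1 z := fun z => by rw [h]
    have h2 : ∀ w, (F ⟨H, hH⟩).2 w = (F ⟨G, hG⟩).2 w := fun w => by rw [h]
    apply Subtype.ext
    funext a b
    by_cases hab : (a : ℕ) < 5 * s ∧ (b : ℕ) < 5 * s
    · have h3 := h1 (⟨a / 5, by omega⟩, ⟨b / 5, by omega⟩)
      have h4 := congrFun (congrFun (congrArg Subtype.val h3) ⟨a % 5, by omega⟩)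
        ⟨b % 5, by omega⟩
      simp only [F] at h4
      have ea : (⟨5 * (a / 5) + a % 5, by omega⟩ : Fin k) = a := by
        apply Fin.ext
        simp only
        omega
      have eb : (⟨5 * (b / 5) + b % 5, by omega⟩ : Fin k) = b := by
        apply Fin.ext
        simp only
        omega
      rw [ea, eb] at h4
      exact h4
    · exact h2 ⟨(a, b), hab⟩
  have h1 := Nat.card_le_card_of_injective F hF
  rw [Nat.card_prod, Nat.card_coe_set_eq] at h1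
  have h2 : Nat.card (Fin s × Fin s → {M : Matrix (Fin 5) (Fin 5) Bool // M ≠ H5}) =
      (2 ^ 25 - 1) ^ (s * s) := by
    have h3 := card_ne_H5
    rw [Nat.card_fun, h3]
    simp
  have h4 : Nat.card (Out k s → Bool) = 2 ^ Nat.card (Out k s) := by
    rw [Nat.card_fun]
    simp
  rw [h2, h4] at h1
  have h5 := card_out hs
  calc _ ≤ (2 ^ 25 - 1) ^ (s * s) * 2 ^ Nat.card (Out k s) * 2 ^ (25 * (s * s)) :=
        Nat.mul_le_mul_right _ h1
    _ = (2 ^ 25 - 1) ^ (s * s) * 2 ^ (Nat.card (Out k s) + 5 * s * (5 * s)) := by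
        rw [mul_assoc, ← pow_add]
        congr 2
        ring
    _ = _ := by rw [h5]

/-- Bernoulli -/
theorem bern (N : ℕ) (hN : 2 ≤ N) : (N - 1) ^ N * 2 ≤ N ^ N := by
  obtain ⟨M, rfl⟩ : ∃ M, N = M + 1 := ⟨N - 1, by omega⟩
  have hM : 1 ≤ M := by omega
  simp only [Nat.add_sub_cancel]
  have h1 := one_add_mul_le_pow (a := (1 : ℝ) / M) (by
    have : (0 : ℝ) ≤ 1 / M := by positivity
    linarith) (M + 1)
  have hMr : (0 : ℝ) < M := by exact_mod_cast hM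
  have h2 : (2 : ℝ) ≤ (1 + 1 / (M : ℝ)) ^ (M + 1) := by
    refine le_trans ?_ h1
    push_cast
    have : ((M : ℝ) + 1) * (1 / M) = 1 + 1 / M := by field_simp
    rw [this]
    have : (0 : ℝ) ≤ 1 / M := by positivity
    linarith
  have h3 : ((M ^ (M + 1) * 2 : ℕ) : ℝ) ≤ (((M + 1) ^ (M + 1) : ℕ) : ℝ) := by
    push_cast
    calc (M : ℝ) ^ (M + 1) * 2 ≤ (M : ℝ) ^ (M + 1) * (1 + 1 / (M : ℝ)) ^ (M + 1) :=
          mul_le_mul_of_nonneg_left h2 (by positivity)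
      _ = ((M : ℝ) * (1 + 1 / (M : ℝ))) ^ (M + 1) := by rw [mul_pow]
      _ = ((M : ℝ) + 1) ^ (M + 1) := by
          congr 1
          field_simp
  exact_mod_cast h3

theorem bern_pow (N n w : ℕ) (hN : 2 ≤ N) (hw : N * w ≤ n) :
    (N - 1) ^ n * 2 ^ w ≤ N ^ n := by
  obtain ⟨r, rfl⟩ : ∃ r, n = N * w + r := ⟨n - N * w, by omega⟩
  calc (N - 1) ^ (N * w + r) * 2 ^ w = ((N - 1) ^ N * 2) ^ w * (N - 1) ^ r := by
        rw [pow_add, pow_mul, mul_pow]; ring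
    _ ≤ (N ^ N) ^ w * N ^ r := Nat.mul_le_mul (Nat.pow_le_pow_left (bern N hN) _)
        (Nat.pow_le_pow_left (Nat.sub_le _ _) _)
    _ = N ^ (N * w + r) := by rw [pow_add, pow_mul]

end block

/-! ### the final count -/

theorem small_cube {k : ℕ} (hk : 2 ^ 30 ≤ k) :
    k * k * (k + 1) * 2 * 2 ≤ 2 ^ (k / 132 - 1) := by
  obtain ⟨n, hn⟩ : ∃ n, n = k / 1320 := ⟨_, rfl⟩
  have h1 : n < 2 ^ n := Nat.lt_two_pow_self
  have hn9 : 1000 ≤ n := by omega
  have h2 : k + 1 ≤ 2 ^ 11 * n := by omega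
  have h3 : k + 1 ≤ 2 ^ (11 + n) := by
    rw [pow_add]
    exact h2.trans (Nat.mul_le_mul_left _ h1.le)
  calc k * k * (k + 1) * 2 * 2
      ≤ 2 ^ (11 + n) * 2 ^ (11 + n) * 2 ^ (11 + n) * 2 * 2 := by
        have : k ≤ 2 ^ (11 + n) := by omega
        gcongr
    _ = 2 ^ (35 + 3 * n) := by
        rw [← pow_add, ← pow_add, ← pow_succ, ← pow_succ]
        congr 1
        ring
    _ ≤ _ := Nat.pow_le_pow_right (by norm_num) (by omega)

/-- all but `2 ^ (k ^ 2 - k / 12)` of the patterns are rigid and have a block -/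
theorem card_bad {k : ℕ} (hk : 2 ^ 30 ≤ k) :
    {H : Matrix (Fin k) (Fin k) Bool | ¬ (HasBlock H ∧ Rigid (k / 11) H)}.ncard ≤
      2 ^ (k ^ 2 - k / 12) := by
  have hsub : {H : Matrix (Fin k) (Fin k) Bool | ¬ (HasBlock H ∧ Rigid (k / 11) H)} ⊆
      {H | ¬ HasBlock H} ∪ {H | ¬ Rigid (k / 11) H} := by
    intro H hH
    simp only [Set.mem_ofPred_eq, Set.mem_union] at hH ⊢
    tauto
  have h1 := (Set.ncard_le_ncard hsub (Set.toFinite _)).trans (Set.ncard_union_le _ _)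
  have hkk : k / 12 + 1 ≤ k * k := by nlinarith [Nat.div_le_self k 12]
  -- the blocks
  obtain ⟨s, hs⟩ : ∃ s, s = k / 5 := ⟨_, rfl⟩
  have hs5 : 5 * s ≤ k := by omega
  have h2 := card_not_block (k := k) (s := s) hs5
  have h3 := bern_pow (2 ^ 25) (s * s) (k / 12 + 1) (by norm_num) (by
    have h4 : k / 12 + 1 ≤ s := by omega
    have h5 : 2 ^ 25 ≤ s := by omega
    exact (Nat.mul_le_mul h5 h4))
  have h6 : {H : Matrix (Fin k) (Fin k) Bool | ¬ HasBlock H}.ncard * 2 ^ (k / 12 + 1) ≤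
      2 ^ (k * k) := by
    have h7 : {H : Matrix (Fin k) (Fin k) Bool | ¬ HasBlock H}.ncard * 2 ^ (k / 12 + 1) *
        2 ^ (25 * (s * s)) ≤ 2 ^ (k * k) * 2 ^ (25 * (s * s)) := by
      calc _ = {H : Matrix (Fin k) (Fin k) Bool | ¬ HasBlock H}.ncard * 2 ^ (25 * (s * s)) *
            2 ^ (k / 12 + 1) := by ring
        _ ≤ (2 ^ 25 - 1) ^ (s * s) * 2 ^ (k * k) * 2 ^ (k / 12 + 1) := Nat.mul_le_mul_right _ h2
        _ = (2 ^ 25 - 1) ^ (s * s) * 2 ^ (k / 12 + 1) * 2 ^ (k * k) := by ring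
        _ ≤ (2 ^ 25) ^ (s * s) * 2 ^ (k * k) := Nat.mul_le_mul_right _ h3
        _ = _ := by rw [← pow_mul]; ring
    exact Nat.le_of_mul_le_mul_right h7 (by positivity)
  -- rigidity
  have h8 := card_not_rigid (k := k) (k / 11)
  have h9 : {H : Matrix (Fin k) (Fin k) Bool | ¬ Rigid (k / 11) H}.ncard * 2 ^ (k / 12 + 1) ≤
      2 ^ (k * k) := by
    have h10 : k / 12 + 1 + (k / 132 - 1) ≤ k / 11 + 1 := by omega
    have h11 := small_cube hk
    have h12 : {H : Matrix (Fin k) (Fin k) Bool | ¬ Rigid (k / 11) H}.ncard *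
        2 ^ (k / 12 + 1) * 2 ^ (k / 132 - 1) ≤ 2 ^ (k * k) * 2 ^ (k / 132 - 1) := by
      calc _ = {H : Matrix (Fin k) (Fin k) Bool | ¬ Rigid (k / 11) H}.ncard *
            2 ^ (k / 12 + 1 + (k / 132 - 1)) := by rw [pow_add]; ring
        _ ≤ {H : Matrix (Fin k) (Fin k) Bool | ¬ Rigid (k / 11) H}.ncard * 2 ^ (k / 11 + 1) :=
            Nat.mul_le_mul_left _ (Nat.pow_le_pow_right (by norm_num) h10)
        _ = {H : Matrix (Fin k) (Fin k) Bool | ¬ Rigid (k / 11) H}.ncard * 2 ^ (k / 11) * 2 := by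
            rw [pow_succ]; ring
        _ ≤ k * k * (k + 1) * (2 * 2 ^ (k * k)) * 2 := Nat.mul_le_mul_right _ h8
        _ = (k * k * (k + 1) * 2 * 2) * 2 ^ (k * k) := by ring
        _ ≤ 2 ^ (k / 132 - 1) * 2 ^ (k * k) := Nat.mul_le_mul_right _ h11
        _ = _ := by ring
    exact Nat.le_of_mul_le_mul_right h12 (by positivity)
  have h13 : {H : Matrix (Fin k) (Fin k) Bool | ¬ (HasBlock H ∧ Rigid (k / 11) H)}.ncard *
      2 ^ (k / 12 + 1) ≤ 2 ^ (k ^ 2 - k / 12) * 2 ^ (k / 12 + 1) := by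
    calc _ ≤ ({H : Matrix (Fin k) (Fin k) Bool | ¬ HasBlock H}.ncard +
          {H : Matrix (Fin k) (Fin k) Bool | ¬ Rigid (k / 11) H}.ncard) * 2 ^ (k / 12 + 1) :=
          Nat.mul_le_mul_right _ h1
      _ ≤ 2 ^ (k * k) + 2 ^ (k * k) := by rw [add_mul]; exact add_le_add h6 h9
      _ = 2 ^ (k * k + 1) := by rw [pow_succ]; ring
      _ = 2 ^ (k ^ 2 - k / 12) * 2 ^ (k / 12 + 1) := by
          rw [← pow_add]
          congr 1
          rw [pow_two]
          omega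
  exact Nat.le_of_mul_le_mul_right h13 (by positivity)

end Vale.Agent.P037C
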