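import Vale.Agent.P037.Defs
import Vale.Agent.P037.MiniPattern

/-!
Definitions for: almost every binary pattern has no polynomial removal bound.
-/

namespace Vale.Agent.P037

/-- Some five consecutive rows and five consecutive columns of `H` form the matrix `H5`. -/
def HasBlock {k : ℕ} (H : Matrix (Fin k) (Fin k) Bool) : Prop :=
  ∃ (a b : ℕ) (_ : a + 5 ≤ k) (_ : b + 5 ≤ k), ∀ i j : Fin 5,
    H ⟨a + i, by omega⟩ ⟨b + j, by omega⟩ = H5 i j

/-- Any two rows of `H` differ in every `t` consecutive columns, and any two columns of `H` differ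
in every `t` consecutive rows. -/
def Rigid {k : ℕ} (t : ℕ) (H : Matrix (Fin k) (Fin k) Bool) : Prop :=
  ∀ i i' : Fin k, i ≠ i' → ∀ u : ℕ, u + t ≤ k →
    (∃ j : Fin k, u ≤ (j : ℕ) ∧ (j : ℕ) < u + t ∧ H i j ≠ H i' j) ∧
    (∃ j : Fin k, u ≤ (j : ℕ) ∧ (j : ℕ) < u + t ∧ H j i ≠ H j i')

/-- The removal bound of `H` is exponential in `ε ^ (-1/2)`: for all small `ε` and all large `n`
some `n × n` matrix `A` is `ε`-far from `H`-free and has at most `2 ^ (-1/(136 √ε)) n ^ (2k)`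
ordered copies of `H`. -/
def ExpHard {k : ℕ} (H : Matrix (Fin k) (Fin k) Bool) : Prop :=
  ∀ ε : ℝ, 0 < ε → ε ≤ 1 / (1024 * (k : ℝ) ^ 2) → ∀ n : ℕ, (2 : ℝ) ^ (1 / √ε) ≤ (n : ℝ) →
    ∃ A : Matrix (Fin n) (Fin n) Bool, ε ≤ distFree H A ∧
      (numCopies H A : ℝ) ≤ 2 ^ (-(1 / (136 * √ε))) * (n : ℝ) ^ (2 * k)

end Vale.Agent.P037
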