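import Vale.Agent.P037.H88.Lines

/-!
The host is far from free of the pattern: every configuration without robust change contains a
copy.
-/

namespace Vale.Agent.P037G

open Vale.Agent.P037.Mini

variable {L m q : ℕ} {P P' : Fin (q + 1)}

/-! ### five lines of the old host -/

section old

variable {B : Row L m → Row L m → Prop}

/-- five classes -/
def cls5 (x0 x1 x2 x3 x4 : Cls L) : Fin 5 → Cls L := ![x0, x1, x2, x3, x4]

theorem strictMono5' {g p : Fin (2 ^ L * m)} {x0 x1 x2 x3 x4 : Cls L}
    (h0 : line g p x0 < line g p x1) (h1 : line g p x1 < line g p x2)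
    (h2 : line g p x2 < line g p x3) (h3 : line g p x3 < line g p x4) :
    StrictMono (fun i => line g p (cls5 x0 x1 x2 x3 x4 i)) := by
  rw [Fin.strictMono_iff_lt_succ]
  intro i
  fin_cases i
  · exact h0
  · exact h1
  · exact h2
  · exact h3

/-- the copies used by the gadgets are absent -/
def NoG (B : Row L m → Row L m → Prop) (g g' p : Fin (2 ^ L * m)) : Prop :=
  ∀ (k : Fin 3) (c d : Fin 5 → Cls L), StrictMono (fun i => line g p (c i)) →
    StrictMono (fun j => line g' p (d j)) → (∀ i, rl k (c i) = i) → (∀ j, rl k (d j) = j) →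
    ¬ ∀ i j, B (line g p (c i)) (line g' p (d j)) ↔ pat i j = true

/-- zero gadget -/
theorem zero_gadget_aux' {g g' p : Fin (2 ^ L * m)} (hB : NoG B g g' p)
    (hag : ∀ c d : Cls L, (c.robust ∨ d.robust) →
      (B (line g p c) (line g' p d) ↔ adj false (line g p c) (line g' p d)))
    (s t : Fin (2 * L + 1)) (q : Q L) (hq : okZ q) (h1 : tc L m s p = qu q)
    (h2 : tc L m t p = qv q) :
    ¬ B (line g p (.act s)) (line g' p (.act t)) := by
  intro hb
  have hnc : ¬ okC q := fun h => hq h
  apply hB 2 (cls5 (.a q) (.b q) (.act s) .S .T) (cls5 (.a q) (.b q) (.act t) .S .T)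
  · exact strictMono5' (line_lt_of_reg (by simp [Row.reg])) (line_lt_of_reg (by simp [Row.reg]))
      (line_lt_of_reg (by simp [Row.reg])) (line_lt_of_reg (by simp [Row.reg]))
  · exact strictMono5' (line_lt_of_reg (by simp [Row.reg])) (line_lt_of_reg (by simp [Row.reg]))
      (line_lt_of_reg (by simp [Row.reg])) (line_lt_of_reg (by simp [Row.reg]))
  · intro i
    fin_cases i <;> rfl
  · intro i
    fin_cases i <;> rfl
  · have hpa : pa false q (tc L m t p) := Or.inr ⟨hq, h2⟩
    have hpa' : pa true q (tc L m s p) := Or.inr ⟨hq, h1⟩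
    have hpb : ∀ w, ¬ pb q w := fun w h => hnc h.1
    intro i j
    fin_cases i <;> fin_cases j <;> simp [cls5, pat] <;>
      first
        | exact hb
        | (rw [hag _ _ (by simp [Cls.robust])]
           simp only [adj, line_cls, tc_line, hpa, hpa', hpb, hq, Bool.not_false, not_false_iff])

theorem zero_gadget' {g g' p : Fin (2 ^ L * m)} (hB : NoG B g g' p)
    (hag : ∀ c d : Cls L, (c.robust ∨ d.robust) →
      (B (line g p c) (line g' p d) ↔ adj false (line g p c) (line g' p d)))
    (s t : Fin (2 * L + 1)) (hst : lev L s + 1 = lev L t ∨ lev L t + 1 = lev L s ∨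
      (lev L s = L ∧ lev L t = L)) :
    ¬ B (line g p (.act s)) (line g' p (.act t)) := by
  have hs : lev L s ≤ L := by unfold lev; omega
  have ht : lev L t ≤ L := by unfold lev; omega
  rcases hst with h | h | ⟨h, h'⟩
  · apply zero_gadget_aux' hB hag s t
      (1, ⟨lev L s, by omega⟩, ⟨nd L m s p % 2, by omega⟩, ⟨nd L m t p % 2, by omega⟩)
    · simp [okZ]
    · simp [qu, tc]
    · simp only [tc, qv, Fin.isValue, Fin.reduceEq, ↓reduceIte, Nat.add_right_cancel_iff]
      omega
  · apply zero_gadget_aux' hB hag s t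
      (2, ⟨lev L t, by omega⟩, ⟨nd L m t p % 2, by omega⟩, ⟨nd L m s p % 2, by omega⟩)
    · simp [okZ]
    · simp [qu, tc]
      omega
    · simp [qv, tc]
  · apply zero_gadget_aux' hB hag s t
      (3, 0, ⟨nd L m s p % 2, by omega⟩, 0)
    · simp [okZ]
    · simp [qu, tc, h]
    · simp only [tc, h', nd, qv, Fin.isValue, Fin.reduceEq, ↓reduceIte, h, Nat.add_left_cancel_iff]

/-- chain gadget -/
theorem chain_gadget' {g g' p : Fin (2 ^ L * m)} (hB : NoG B g g' p)
    (hag : ∀ c d : Cls L, (c.robust ∨ d.robust) →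
      (B (line g p c) (line g' p d) ↔ adj false (line g p c) (line g' p d)))
    {l : ℕ} (hl : l < L)
    (hcorn : ∀ s t : Fin (2 * L + 1), lev L s = l → lev L t = l →
      B (line g p (.act s)) (line g' p (.act t)))
    (s t : Fin (2 * L + 1)) (hs : lev L s = l + 1) (ht : lev L t = l + 1) :
    B (line g p (.act s)) (line g' p (.act t)) := by
  by_contra hb
  let q : Q L := (0, ⟨l, by omega⟩, ⟨p / wid L m l % 2, by omega⟩,
    ⟨p / wid L m (l + 1) % 2, by omega⟩)
  have hq : okC q := rfl
  have hqu : tau L m p l = qu q := by simp only [tau, qu, Fin.isValue, Fin.reduceEq, ↓reduceIte, Nat.add_left_cancel_iff, q]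
  have hqv : tau L m p (l + 1) = qv q := by simp only [tau, qv, Fin.isValue, Fin.reduceEq, ↓reduceIte, Nat.add_right_cancel_iff, q]; omega
  have huv : tau L m p l ≠ tau L m p (l + 1) := by
    unfold tau; omega
  let x : Fin (2 * L + 1) := ⟨l, by omega⟩
  let z : Fin (2 * L + 1) := ⟨2 * L - l, by omega⟩
  have hx : lev L x = l := by
    show lev L l = l
    unfold lev; omega
  have hz : lev L z = l := by
    show lev L (2 * L - l) = l
    unfold lev; (clear * - hl hs ht hx; omega)
  have hxs : (x : ℕ) < s := by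
    show l < s
    unfold lev at hs; omega
  have hsz : (s : ℕ) < z := by
    show (s : ℕ) < 2 * L - l
    unfold lev at hs; (clear * - hl hs ht huv hx hz; omega)
  have hxt : (x : ℕ) < t := by
    show l < t
    unfold lev at ht; (clear * - hl hs ht huv hx hz; omega)
  have htz : (t : ℕ) < z := by
    show (t : ℕ) < 2 * L - l
    unfold lev at ht; (clear * - hl hs ht huv hx hz; omega)
  have tx : tc L m x p = tau L m p l := by rw [tc_eq_tau, hx]
  have tz : tc L m z p = tau L m p l := by rw [tc_eq_tau, hz]
  have ts : tc L m s p = tau L m p (l + 1) := by rw [tc_eq_tau, hs]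
  have tt : tc L m t p = tau L m p (l + 1) := by rw [tc_eq_tau, ht]
  have z1 := zero_gadget' hB hag x t (by (clear * - hl hs ht hx hz; omega))
  have z2 := zero_gadget' hB hag z t (by (clear * - hl hs ht hx hz; omega))
  have z3 := zero_gadget' hB hag s x (by (clear * - hl hs ht hx hz; omega))
  have z4 := zero_gadget' hB hag s z (by (clear * - hl hs ht hx hz; omega))
  have c1 := hcorn x x hx hx
  have c2 := hcorn x z hx hz
  have c3 := hcorn z x hz hx
  have c4 := hcorn z z hz hz
  -- the kind of the extra lines is the parity of the level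
  let k : Fin 3 := ⟨l % 2, by omega⟩
  have hk2 : ¬ ((k : ℕ) = 2) := by simp only [k]; omega
  have rx : rl k (.act x) = 2 := by
    simp only [rl, hk2, ↓reduceIte, hx]
    rw [if_pos (show l % 2 = (k : ℕ) from rfl), if_pos (show ((x : Fin (2 * L + 1)) : ℕ) < L from hl)]
  have rz : rl k (.act z) = 4 := by
    simp only [rl, hk2, ↓reduceIte, hz]
    rw [if_pos (show l % 2 = (k : ℕ) from rfl), if_neg (show ¬ ((z : Fin (2 * L + 1)) : ℕ) < L by
      simp only [z]; omega)]
  have rs : rl k (.act s) = 3 := by
    simp only [rl, hk2, ↓reduceIte, hs]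
    rw [if_neg (show ¬ ((l + 1) % 2 = (k : ℕ)) by simp only [k]; omega)]
  have rt : rl k (.act t) = 3 := by
    simp only [rl, hk2, ↓reduceIte, ht]
    rw [if_neg (show ¬ ((l + 1) % 2 = (k : ℕ)) by simp only [k]; omega)]
  apply hB k (cls5 (.a q) (.b q) (.act x) (.act s) (.act z))
    (cls5 (.a q) (.b q) (.act x) (.act t) (.act z))
  · exact strictMono5' (line_lt_of_reg (by simp [Row.reg])) (line_lt_of_reg (by simp [Row.reg]))
      (line_lt_act hxs) (line_lt_act hsz)
  · exact strictMono5' (line_lt_of_reg (by simp [Row.reg])) (line_lt_of_reg (by simp [Row.reg]))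
      (line_lt_act hxt) (line_lt_act htz)
  · intro i
    fin_cases i
    · rfl
    · rfl
    · exact rx
    · exact rs
    · exact rz
  · intro i
    fin_cases i
    · rfl
    · rfl
    · exact rx
    · exact rt
    · exact rz
  · have hpa : ∀ f, pa f q (tau L m p l) := fun f => Or.inl ⟨hq, hqu⟩
    have hpb : pb q (tau L m p (l + 1)) := ⟨hq, hqv⟩
    have hnpa : ∀ f, ¬ pa f q (tau L m p (l + 1)) := by
      rintro f (h | h)
      · exact huv (hqu.trans h.2.symm)
      · exact h.1 hq
    have hnpb : ¬ pb q (tau L m p l) := fun h => huv (h.2.trans hqv.symm)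
    intro i j
    fin_cases i <;> fin_cases j <;> simp [cls5, pat] <;>
      first
        | exact hb
        | exact c1
        | exact c2
        | exact c3
        | exact c4
        | exact z1
        | exact z2
        | exact z3
        | exact z4
        | (rw [hag _ _ (by simp [Cls.robust])]
           simp only [adj, line_cls, tc_line, tx, tz, ts, tt, hpa, hpb, hnpa, hnpb, not_false_iff])

/-- a configuration without robust change contains a copy -/
theorem no_agree' (hL : 1 ≤ L) {g g' p : Fin (2 ^ L * m)} (hB : NoG B g g' p)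
    (hag : ∀ c d : Cls L, (c.robust ∨ d.robust) →
      (B (line g p c) (line g' p d) ↔ adj false (line g p c) (line g' p d))) : False := by
  have main : ∀ l, l ≤ L → ∀ s t : Fin (2 * L + 1), lev L s = l → lev L t = l →
      B (line g p (.act s)) (line g' p (.act t)) := by
    intro l
    induction l with
    | zero =>
      intro _ s t hs ht
      have hs' : (s : ℕ) = 0 ∨ (s : ℕ) = 2 * L := by unfold lev at hs; omega
      have ht' : (t : ℕ) = 0 ∨ (t : ℕ) = 2 * L := by unfold lev at ht; omega
      rw [hag (.act s) (.act t) (Or.inl hs')]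
      simp only [adj, line_cls, nd_line, hs, ht, true_and]
      refine ⟨?_, hL⟩
      rw [nd_robust hs' p.2, nd_robust ht' p.2]
    | succ l ih =>
      intro hl s t hs ht
      exact chain_gadget' hB hag (by omega) (ih (by omega)) s t hs ht
  have hm := main L le_rfl ⟨L, by omega⟩ ⟨L, by omega⟩ (by show lev L L = L; unfold lev; omega)
    (by show lev L L = L; unfold lev; omega)
  refine zero_gadget' hB hag _ _ (Or.inr (Or.inr ?_)) hm
  have : lev L L = L := by unfold lev; omega
  exact ⟨this, this⟩

end old

/-! ### all lines -/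

/-- robust classes -/
def Rob (c : Cl L q) : Prop :=
  match c with
  | .old c => c.robust
  | .ex _ _ => True

theorem rob_ex (e : Fin q) (k : Fin 3) : Rob (.ex e k : Cl L q) := trivial

open Classical in
/-- the line of class `c` in the configuration `g`, `p` -/
noncomputable def ln (P : Fin (q + 1)) (g p : Fin (2 ^ L * m)) (c : Cl L q) : Ln L m q P :=
  if Rob c then ⟨c, g⟩ else ⟨c, p⟩

theorem ln_cls (g p : Fin (2 ^ L * m)) (c : Cl L q) : (ln P g p c).cls = c := by
  unfold ln; split_ifs <;> rfl

theorem ln_old (g p : Fin (2 ^ L * m)) (c : Cls L) :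
    (ln P g p (.old c : Cl L q)) = emb (line g p c) := by
  unfold ln line emb
  by_cases h : c.robust
  · rw [if_pos (show Rob (.old c : Cl L q) from h), if_pos h]
  · rw [if_neg (show ¬ Rob (.old c : Cl L q) from h), if_neg h]

/-- the lines of a copy through five old lines -/
noncomputable def lns (P : Fin (q + 1)) (g p : Fin (2 ^ L * m)) (k : Fin 3) (c : Fin 5 → Cls L)
    (i : Fin (q + 5)) : Ln L m q P :=
  match dc P i with
  | .inl j => ln P g p (.old (c j))
  | .inr e => ln P g p (.ex e k)

theorem lns_fi (g p : Fin (2 ^ L * m)) (k : Fin 3) (c : Fin 5 → Cls L) (i : Fin 5) :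
    lns P g p k c (fi P i) = ln P g p (.old (c i)) := by
  unfold lns
  rw [dc_fi]

theorem lns_ei (g p : Fin (2 ^ L * m)) (k : Fin 3) (c : Fin 5 → Cls L) (e : Fin q) :
    lns P g p k c (ei P e) = ln P g p (.ex e k) := by
  unfold lns
  rw [dc_ei]

theorem lns_mono {g p : Fin (2 ^ L * m)} (k : Fin 3) {c : Fin 5 → Cls L}
    (hc : StrictMono (fun i => line g p (c i))) : StrictMono (lns P g p k c) := by
  intro i i' hii
  have hval : (i : ℕ) < i' := hii
  rcases h1 : dc P i with j | e <;> rcases h2 : dc P i' with j' | e'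
  · have e1 := dc_inl h1
    have e2 := dc_inl h2
    rw [e1, e2, lns_fi, lns_fi, ln_old, ln_old, emb_lt]
    apply hc
    rw [e1, e2] at hval
    simp only [fi] at hval
    rw [Fin.lt_def]
    omega
  · have e1 := dc_inl h1
    have e2 := dc_inr h2
    rw [e1, e2] at hval ⊢
    rw [lns_fi, lns_ei, Ln.lt_iff, ln_cls, ln_cls]
    left
    simp only [fi, ei] at hval
    simp only [nu]
    split_ifs at hval ⊢ <;> omega
  · have e1 := dc_inr h1
    have e2 := dc_inl h2
    rw [e1, e2] at hval ⊢
    rw [lns_fi, lns_ei, Ln.lt_iff, ln_cls, ln_cls]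
    left
    simp only [fi, ei] at hval
    simp only [nu]
    split_ifs at hval ⊢ <;> omega
  · have e1 := dc_inr h1
    have e2 := dc_inr h2
    rw [e1, e2] at hval ⊢
    rw [lns_ei, lns_ei, Ln.lt_iff, ln_cls, ln_cls]
    left
    simp only [ei] at hval
    simp only [nu]
    split_ifs at hval ⊢ <;> omega

variable {H : Matrix (Fin (q + 5)) (Fin (q + 5)) Bool} {B : Ln L m q P → Ln L m q P' → Prop}

/-- a configuration without robust change contains a copy -/
theorem no_agree_gen (hL : 1 ≤ L) (hF : ∀ i j, H (fi P i) (fi P' j) = pat i j)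
    (hB : ∀ R C, StrictMono R → StrictMono C → ¬ ∀ i j, B (R i) (C j) ↔ H i j = true)
    (g g' p : Fin (2 ^ L * m)) :
    ∃ c d : Cl L q, (Rob c ∨ Rob d) ∧
      ¬ (B (ln P g p c) (ln P' g' p d) ↔ base false H (ln P g p c) (ln P' g' p d)) := by
  by_contra hcon
  push Not at hcon
  have hag : ∀ c d : Cl L q, (Rob c ∨ Rob d) →
      (B (ln P g p c) (ln P' g' p d) ↔ base false H (ln P g p c) (ln P' g' p d)) := fun c d h => by
    by_contra h2
    have := hcon c d h
    tauto
  refine no_agree' (B := fun x y => B (emb x) (emb y)) (g := g) (g' := g') (p := p) hL ?_ ?_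
  · intro k c d mc md rc rd hcopy
    apply hB (lns P g p k c) (lns P' g' p k d) (lns_mono k mc) (lns_mono k md)
    intro i j
    rcases h1 : dc P i with a | e <;> rcases h2 : dc P' j with b | e'
    · rw [dc_inl h1, dc_inl h2, lns_fi, lns_fi, ln_old, ln_old, hF]
      exact hcopy a b
    · rw [dc_inl h1, dc_inr h2, lns_fi, lns_ei, hag _ _ (Or.inr (rob_ex _ _))]
      simp only [base, ln_cls]
      rw [rc]
    · rw [dc_inr h1, dc_inl h2, lns_fi, lns_ei, hag _ _ (Or.inl (rob_ex _ _))]
      simp only [base, ln_cls]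
      rw [rd]
    · rw [dc_inr h1, dc_inr h2, lns_ei, lns_ei, hag _ _ (Or.inl (rob_ex _ _))]
      simp only [base, ln_cls]
  · intro c d hcd
    have := hag (.old c) (.old d) hcd
    rw [ln_old, ln_old, base_emb] at this
    exact this

end Vale.Agent.P037G
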