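import Vale.Agent.P037.H88.Copies
import Vale.Agent.P037.H88.Far

/-!
The host matrix of size `n`: it is far from free of the pattern and has few copies.
-/

namespace Vale.Agent.P037G

open Vale.Agent.P037.Mini
open Vale.Agent.P037 (Rigid IsCopy numCopies numDiff distFree)

variable {L m q t : ℕ} {P P' : Fin (q + 1)} {H : Matrix (Fin (q + 5)) (Fin (q + 5)) Bool}

theorem far_gen {B : Ln L m q P → Ln L m q P' → Prop} (hL : 1 ≤ L)
    (hF : ∀ i j, H (fi P i) (fi P' j) = pat i j)
    (hB : ∀ R C, StrictMono R → StrictMono C → ¬ ∀ i j, B (R i) (C j) ↔ H i j = true) :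
    (2 ^ L * m) ^ 2 ≤
      Nat.card {x : Ln L m q P × Ln L m q P' // ¬ (B x.1 x.2 ↔ base false H x.1 x.2)} := by
  classical
  have h1 := fun w : Fin (2 ^ L * m) × Fin (2 ^ L * m) × Fin (2 ^ L * m) =>
    no_agree_gen hL hF hB w.1 w.2.1 w.2.2
  choose c d hr hd using h1
  let F : Fin (2 ^ L * m) × Fin (2 ^ L * m) × Fin (2 ^ L * m) → Ln L m q P × Ln L m q P' :=
    fun w => (ln P w.1 w.2.2 (c w), ln P' w.2.1 w.2.2 (d w))
  let D : Finset (Ln L m q P × Ln L m q P') :=
    Finset.univ.filter (fun x => ¬ (B x.1 x.2 ↔ base false H x.1 x.2))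
  have hD : Nat.card {x : Ln L m q P × Ln L m q P' // ¬ (B x.1 x.2 ↔ base false H x.1 x.2)} =
      D.card := by
    rw [Nat.card_eq_fintype_card, Fintype.card_subtype]
  rw [hD]
  have h2 : (Finset.univ : Finset (Fin (2 ^ L * m) × Fin (2 ^ L * m) × Fin (2 ^ L * m))).card ≤
      2 ^ L * m * D.card := by
    apply Finset.card_le_mul_card_image_of_maps_to (f := F)
    · intro w _
      simp only [D, Finset.mem_filter, Finset.mem_univ, true_and]
      exact hd w
    · rintro ⟨x, y⟩ _
      have key : ∀ w, F w = (x, y) → (Rob x.cls ∨ Rob y.cls) ∧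
          (Rob x.cls → w.1 = x.par) ∧ (¬ Rob x.cls → w.2.2 = x.par) ∧
          (Rob y.cls → w.2.1 = y.par) ∧ (¬ Rob y.cls → w.2.2 = y.par) := by
        intro w hw
        simp only [F, Prod.mk.injEq] at hw
        obtain ⟨hx, hy⟩ := hw
        have cx : x.cls = c w := by rw [← hx, ln_cls]
        have cy : y.cls = d w := by rw [← hy, ln_cls]
        rw [cx, cy]
        refine ⟨hr w, ?_, ?_, ?_, ?_⟩
        · intro h
          rw [← hx]; unfold ln; rw [if_pos h]
        · intro h
          rw [← hx]; unfold ln; rw [if_neg h]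
        · intro h
          rw [← hy]; unfold ln; rw [if_pos h]
        · intro h
          rw [← hy]; unfold ln; rw [if_neg h]
      have hcard : (Finset.univ : Finset (Fin (2 ^ L * m))).card = 2 ^ L * m := by
        simp only [Finset.card_univ, Fintype.card_fin]
      by_cases hx : Rob x.cls
      · by_cases hy : Rob y.cls
        · refine le_trans ?_ hcard.le
          apply Finset.card_le_card_of_injOn (fun w => w.2.2) (fun _ _ => by
            simp only [Finset.coe_univ, Set.mem_univ])
          rintro ⟨a1, a2, a3⟩ ha ⟨b1, b2, b3⟩ hb hab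
          simp only [Finset.coe_filter, Finset.mem_univ, true_and, Set.mem_ofPred_eq] at ha hb
          have ka := key _ ha
          have kb := key _ hb
          have e1 := (ka.2.1 hx).trans (kb.2.1 hx).symm
          have e2 := (ka.2.2.2.1 hy).trans (kb.2.2.2.1 hy).symm
          simp only at e1 e2 hab
          rw [e1, e2, hab]
        · refine le_trans ?_ hcard.le
          apply Finset.card_le_card_of_injOn (fun w => w.2.1) (fun _ _ => by
            simp only [Finset.coe_univ, Set.mem_univ])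
          rintro ⟨a1, a2, a3⟩ ha ⟨b1, b2, b3⟩ hb hab
          simp only [Finset.coe_filter, Finset.mem_univ, true_and, Set.mem_ofPred_eq] at ha hb
          have ka := key _ ha
          have kb := key _ hb
          have e1 := (ka.2.1 hx).trans (kb.2.1 hx).symm
          have e2 := (ka.2.2.2.2 hy).trans (kb.2.2.2.2 hy).symm
          simp only at e1 e2 hab
          rw [e1, e2, hab]
      · by_cases hy : Rob y.cls
        · refine le_trans ?_ hcard.le
          apply Finset.card_le_card_of_injOn (fun w => w.1) (fun _ _ => by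
            simp only [Finset.coe_univ, Set.mem_univ])
          rintro ⟨a1, a2, a3⟩ ha ⟨b1, b2, b3⟩ hb hab
          simp only [Finset.coe_filter, Finset.mem_univ, true_and, Set.mem_ofPred_eq] at ha hb
          have ka := key _ ha
          have kb := key _ hb
          have e1 := (ka.2.2.1 hx).trans (kb.2.2.1 hx).symm
          have e2 := (ka.2.2.2.1 hy).trans (kb.2.2.2.1 hy).symm
          simp only at e1 e2 hab
          rw [e1, e2, hab]
        · have : Finset.univ.filter (fun w => F w = (x, y)) = ∅ := by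
            apply Finset.filter_eq_empty_iff.2
            intro w _ hw
            rcases (key w hw).1 with h | h
            · exact hx h
            · exact hy h
          rw [this]
          simp
  simp only [Finset.card_univ, Fintype.card_prod, Fintype.card_fin] at h2
  rcases Nat.eq_zero_or_pos (2 ^ L * m) with h0 | hpos
  · rw [h0]; simp
  have h3 : 2 ^ L * m * (2 ^ L * m) ^ 2 ≤ 2 ^ L * m * D.card := by
    calc 2 ^ L * m * (2 ^ L * m) ^ 2 = 2 ^ L * m * (2 ^ L * m * (2 ^ L * m)) := by ring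
      _ ≤ _ := h2
  exact Nat.le_of_mul_le_mul_left h3 hpos

/-! ### the host of size `n` -/

/-- the number of lines -/
def NL (L m q : ℕ) : ℕ := (34 * L + 35 + 3 * q) * (2 ^ L * m)

theorem card_ln (P : Fin (q + 1)) : Fintype.card (Ln L m q P) = NL L m q := by
  let e : Ln L m q P ≃ (Cls L ⊕ (Fin q × Fin 3)) × Fin (2 ^ L * m) :=
    { toFun := fun x => (match x.cls with
        | .old c => .inl c
        | .ex e k => .inr (e, k), x.par)
      invFun := fun y => ⟨match y.1 with
        | .inl c => .old c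
        | .inr z => .ex z.1 z.2, y.2⟩
      left_inv := fun x => by
        obtain ⟨c, g⟩ := x
        cases c <;> rfl
      right_inv := fun y => by
        obtain ⟨c, g⟩ := y
        rcases c with c | ⟨e, k⟩ <;> rfl }
  rw [Fintype.card_congr e, Fintype.card_prod, Fintype.card_sum, card_cls, Fintype.card_prod,
    Fintype.card_fin, Fintype.card_fin, Fintype.card_fin]
  unfold NL
  ring

/-- the enumeration of the lines -/
noncomputable def en (L m : ℕ) (P : Fin (q + 1)) : Ln L m q P ≃o Fin (NL L m q) :=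
  (Fintype.orderIsoFinOfCardEq _ (card_ln P)).symm

/-- inclusion of the lines in `Fin n` -/
noncomputable def sg {n : ℕ} (hn : NL L m q ≤ n) (P : Fin (q + 1)) : Ln L m q P ↪o Fin n :=
  (en L m P).toOrderEmbedding.trans (Fin.castLEOrderEmb hn)

/-- the line of an index: all large indices belong to the last line -/
noncomputable def rh {n : ℕ} (h0 : 0 < NL L m q) (P : Fin (q + 1)) (i : Fin n) : Ln L m q P :=
  (en L m P).symm ⟨min i (NL L m q - 1), by omega⟩

variable {n : ℕ}

theorem rh_mono (h0 : 0 < NL L m q) : Monotone (rh (n := n) h0 P) := by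
  intro i j hij
  unfold rh
  apply (en L m P).symm.monotone
  rw [Fin.le_def] at hij ⊢
  simp only
  omega

theorem rh_sg (h0 : 0 < NL L m q) (hn : NL L m q ≤ n) (x : Ln L m q P) :
    rh h0 P (sg hn P x) = x := by
  unfold rh sg
  rw [OrderIso.symm_apply_eq]
  apply Fin.ext
  simp only [RelEmbedding.coe_trans, Function.comp_apply, Fin.castLEOrderEmb_apply,
    Fin.val_castLE, OrderIso.coe_toOrderEmbedding]
  have := (en L m P x).2
  omega

theorem sg_rh (h0 : 0 < NL L m q) (hn : NL L m q ≤ n) {i : Fin n} {x y : Ln L m q P} (hxy : x < y)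
    (h : rh h0 P i = x) : i = sg hn P x := by
  unfold rh at h
  rw [OrderIso.symm_apply_eq] at h
  have h1 := congrArg Fin.val h
  simp only at h1
  have h2 : ((en L m P x : Fin (NL L m q)) : ℕ) < en L m P y := (en L m P).strictMono hxy
  have h3 := (en L m P y).2
  apply Fin.ext
  unfold sg
  simp only [RelEmbedding.coe_trans, Function.comp_apply, Fin.castLEOrderEmb_apply,
    Fin.val_castLE, OrderIso.coe_toOrderEmbedding]
  omega

open Classical in
/-- the host matrix -/
noncomputable def hostM (n : ℕ) (h0 : 0 < NL L m q) (P P' : Fin (q + 1))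
    (H : Matrix (Fin (q + 5)) (Fin (q + 5)) Bool) : Matrix (Fin n) (Fin n) Bool :=
  fun i j => decide (base false H (rh h0 P i) (rh h0 P' j))

theorem hostM_iff (h0 : 0 < NL L m q) (i j : Fin n) :
    hostM n h0 P P' H i j = true ↔ base false H (rh h0 P i) (rh h0 P' j) := by
  unfold hostM
  simp only [decide_eq_true_eq]

theorem copy_host (ht : 1 ≤ t) (hk : 11 * t ≤ q + 5) (hH : Rigid t H)
    (hF : ∀ i j, H (fi P i) (fi P' j) = pat i j) (h0 : 0 < NL L m q) (hn : NL L m q ≤ n)
    {r c : Fin (q + 5) ↪o Fin n} (h : IsCopy H (hostM n h0 P P' H) r c) :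
    ∃ p p' : Fin (2 ^ L * m), r (fi P 3) = sg hn P (emb ⟨.act ⟨L, by omega⟩, p⟩) ∧
      c (fi P' 3) = sg hn P' (emb ⟨.act ⟨L, by omega⟩, p'⟩) ∧ (p : ℕ) / m = (p' : ℕ) / m := by
  have hc : ∀ i j, base false H (rh h0 P (r i)) (rh h0 P' (c j)) ↔ H i j = true := fun i j => by
    rw [← hostM_iff, h i j]
  have mr : StrictMono (fun i => rh h0 P (r i)) := by
    have h1 : Monotone (fun i => rh h0 P (r i)) := (rh_mono h0).comp r.monotone
    refine h1.strictMono_of_injective ?_
    intro i i' hii
    by_contra hne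
    obtain ⟨⟨j, _, _, hj⟩, _⟩ := hH i i' hne 0 (by omega)
    apply hj
    apply Bool.eq_iff_iff.2
    simp only at hii
    rw [← hc i j, ← hc i' j, hii]
  have mc : StrictMono (fun i => rh h0 P' (c i)) := by
    have h1 : Monotone (fun i => rh h0 P' (c i)) := (rh_mono h0).comp c.monotone
    refine h1.strictMono_of_injective ?_
    intro i i' hii
    by_contra hne
    obtain ⟨_, ⟨j, _, _, hj⟩⟩ := hH i i' hne 0 (by omega)
    apply hj
    apply Bool.eq_iff_iff.2
    simp only at hii
    rw [← hc j i, ← hc j i', hii]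
  obtain ⟨p, p', h1, h2, h3⟩ := copy_leaf_gen ht hk hH hF mr mc hc
  refine ⟨p, p', ?_, ?_, h3⟩
  · refine sg_rh h0 hn (y := emb ⟨.T, p⟩) ?_ h1
    rw [emb_lt, Row.lt_iff]
    left
    simp [Row.reg]
  · refine sg_rh h0 hn (y := emb ⟨.T, p'⟩) ?_ h2
    rw [emb_lt, Row.lt_iff]
    left
    simp [Row.reg]

theorem numCopies_host (ht : 1 ≤ t) (hk : 11 * t ≤ q + 5) (hH : Rigid t H)
    (hF : ∀ i j, H (fi P i) (fi P' j) = pat i j) (h0 : 0 < NL L m q) (hn : NL L m q ≤ n) :
    numCopies H (hostM n h0 P P' H) ≤ 2 ^ L * m * m * (n ^ (q + 4) * n ^ (q + 4)) := by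
  have hm : 0 < m := by
    rcases Nat.eq_zero_or_pos m with h | h
    · rw [h] at h0
      simp [NL] at h0
    · exact h
  have key := fun rc : {rc : (Fin (q + 5) ↪o Fin n) × (Fin (q + 5) ↪o Fin n) //
        IsCopy H (hostM n h0 P P' H) rc.1 rc.2} => copy_host ht hk hH hF h0 hn rc.2
  choose p p' h1 h2 h3 using key
  let F : {rc : (Fin (q + 5) ↪o Fin n) × (Fin (q + 5) ↪o Fin n) //
        IsCopy H (hostM n h0 P P' H) rc.1 rc.2} →
      (Fin (2 ^ L * m) × Fin m) × ((Fin (q + 4) → Fin n) × (Fin (q + 4) → Fin n)) := fun rc =>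
    ((p rc, ⟨(p' rc : ℕ) % m, Nat.mod_lt _ hm⟩),
      (fun k => rc.1.1 ((fi P 3).succAbove k), fun k => rc.1.2 ((fi P' 3).succAbove k)))
  have hFi : Function.Injective F := by
    intro x y hxy
    simp only [F, Prod.mk.injEq, Fin.mk.injEq] at hxy
    obtain ⟨⟨e1, e2⟩, e3, e4⟩ := hxy
    have e5 : p' x = p' y := by
      apply Fin.ext
      rw [← Nat.div_add_mod (p' x : ℕ) m, ← Nat.div_add_mod (p' y : ℕ) m, ← h3 x, ← h3 y, e1, e2]
    have e6 : x.1.1 (fi P 3) = y.1.1 (fi P 3) := by rw [h1 x, h1 y, e1]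
    have e7 : x.1.2 (fi P' 3) = y.1.2 (fi P' 3) := by rw [h2 x, h2 y, e5]
    apply Subtype.ext
    apply Prod.ext
    · apply RelEmbedding.ext
      intro i
      rcases Fin.eq_self_or_eq_succAbove (fi P 3) i with h | ⟨k, h⟩
      · rw [h]; exact e6
      · rw [h]; exact congrFun e3 k
    · apply RelEmbedding.ext
      intro i
      rcases Fin.eq_self_or_eq_succAbove (fi P' 3) i with h | ⟨k, h⟩
      · rw [h]; exact e7
      · rw [h]; exact congrFun e4 k
  unfold numCopies
  calc _ ≤ Nat.card ((Fin (2 ^ L * m) × Fin m) ×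
        ((Fin (q + 4) → Fin n) × (Fin (q + 4) → Fin n))) :=
        Nat.card_le_card_of_injective F hFi
    _ = _ := by simp only [Nat.card_eq_fintype_card, Fintype.card_prod, Fintype.card_fin,
        Fintype.card_pi, Finset.prod_const, Finset.card_univ]

theorem free_false_gen (hF : ∀ i j, H (fi P i) (fi P' j) = pat i j) :
    numCopies H (fun _ _ : Fin n => false) = 0 := by
  have : IsEmpty {rc : (Fin (q + 5) ↪o Fin n) × (Fin (q + 5) ↪o Fin n) //
        IsCopy H (fun _ _ : Fin n => false) rc.1 rc.2} := by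
    refine ⟨fun rc => ?_⟩
    have := rc.2 (fi P 0) (fi P' 0)
    rw [hF] at this
    simp [pat] at this
  unfold numCopies
  exact Nat.card_of_isEmpty

theorem numDiff_host (hL : 1 ≤ L) (hF : ∀ i j, H (fi P i) (fi P' j) = pat i j)
    (h0 : 0 < NL L m q) (hn : NL L m q ≤ n) (B : Matrix (Fin n) (Fin n) Bool)
    (hB : numCopies H B = 0) : (2 ^ L * m) ^ 2 ≤ numDiff (hostM n h0 P P' H) B := by
  have hno : ∀ (R : Fin (q + 5) → Ln L m q P) (C : Fin (q + 5) → Ln L m q P'), StrictMono R →
      StrictMono C → ¬ ∀ i j, (fun x y => B (sg hn P x) (sg hn P' y) = true) (R i) (C j) ↔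
        H i j = true := by
    intro r c hr hc hh
    unfold numCopies at hB
    rw [Nat.card_eq_zero] at hB
    rcases hB with hB | hB
    · apply hB.false
      refine ⟨(OrderEmbedding.ofStrictMono (fun i => sg hn P (r i)) ((sg hn P).strictMono.comp hr),
        OrderEmbedding.ofStrictMono (fun i => sg hn P' (c i)) ((sg hn P').strictMono.comp hc)), ?_⟩
      intro i j
      simp only [OrderEmbedding.coe_ofStrictMono]
      exact Bool.eq_iff_iff.2 (hh i j)
    · exact hB.not_finite inferInstance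
  refine (far_gen (B := fun x y => B (sg hn P x) (sg hn P' y) = true) hL hF hno).trans ?_
  unfold numDiff
  refine Nat.card_le_card_of_injective (fun x => ⟨(sg hn P x.1.1, sg hn P' x.1.2), ?_⟩) ?_
  · have hx := x.2
    intro hcon
    apply hx
    simp only at hcon ⊢
    rw [← hcon, hostM_iff, rh_sg, rh_sg]
  · intro x y hxy
    simp only [Subtype.mk.injEq, Prod.mk.injEq, EmbeddingLike.apply_eq_iff_eq] at hxy
    exact Subtype.ext (Prod.ext hxy.1 hxy.2)

theorem dist_host (hL : 1 ≤ L) (hF : ∀ i j, H (fi P i) (fi P' j) = pat i j)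
    (h0 : 0 < NL L m q) (hn : NL L m q ≤ n) :
    ((2 ^ L * m : ℕ) : ℝ) ^ 2 / (n : ℝ) ^ 2 ≤ distFree H (hostM n h0 P P' H) := by
  unfold distFree
  apply div_le_div_of_nonneg_right _ (by positivity)
  have : (2 ^ L * m) ^ 2 ≤ sInf {d : ℕ | ∃ B : Matrix (Fin n) (Fin n) Bool,
      numCopies H B = 0 ∧ numDiff (hostM n h0 P P' H) B = d} := by
    apply le_csInf
    · exact ⟨_, (fun _ _ => false), free_false_gen hF, rfl⟩
    · rintro d ⟨B, h1, h2⟩
      rw [← h2]
      exact numDiff_host hL hF h0 hn B h1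
  exact_mod_cast this

/-- the construction for a given `L` and `n` -/
theorem main_gen (ht : 1 ≤ t) (hk : 11 * t ≤ q + 5) (hH : Rigid t H)
    (hF : ∀ i j, H (fi P i) (fi P' j) = pat i j) (hL : 1 ≤ L)
    (hn : (34 * L + 35 + 3 * q) * 2 ^ L ≤ n) :
    ∃ A : Matrix (Fin n) (Fin n) Bool,
      1 / (2 * (34 * (L : ℝ) + 35 + 3 * (q : ℝ))) ^ 2 ≤ distFree H A ∧
      (numCopies H A : ℝ) * 2 ^ L ≤ (n : ℝ) ^ (2 * (q + 5)) := by
  set K := (34 * L + 35 + 3 * q) * 2 ^ L with hK
  have hKpos : 0 < K := by positivity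
  let m := n / K
  have hm : 1 ≤ m := (Nat.one_le_div_iff hKpos).2 hn
  have hmn : K * m ≤ n := Nat.mul_div_le n K
  have hn2 : n < K * (m + 1) := Nat.lt_mul_div_succ n hKpos
  have hNL : NL L m q = K * m := by
    unfold NL
    rw [hK]; ring
  have h0 : 0 < NL L m q := by rw [hNL]; positivity
  have hnn : NL L m q ≤ n := by rw [hNL]; exact hmn
  refine ⟨hostM n h0 P P' H, ?_, ?_⟩
  · refine le_trans ?_ (dist_host hL hF h0 hnn)
    have hnpos : 0 < n := by omega
    have h1 : (n : ℝ) ≤ 2 * (34 * (L : ℝ) + 35 + 3 * (q : ℝ)) * ((2 ^ L * m : ℕ) : ℝ) := by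
      have h2 : n ≤ 2 * (34 * L + 35 + 3 * q) * (2 ^ L * m) := by
        have : K * (m + 1) ≤ K * (2 * m) := Nat.mul_le_mul_left _ (by (clear * - hm; omega))
        calc n ≤ K * (2 * m) := by omega
          _ = _ := by rw [hK]; ring
      exact_mod_cast h2
    rw [← div_pow, ← one_div_pow]
    apply pow_le_pow_left₀ (by positivity)
    rw [div_le_div_iff₀ (by positivity) (by exact_mod_cast hnpos)]
    linarith only [h1]
  · have h1 := numCopies_host (P := P) (P' := P') ht hk hH hF h0 hnn
    have h2 : numCopies H (hostM n h0 P P' H) * 2 ^ L ≤ n ^ (2 * (q + 5)) := by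
      have h3 : 2 ^ L * m ≤ n := by
        calc 2 ^ L * m ≤ K * m := by
              apply Nat.mul_le_mul_right
              rw [hK]
              exact Nat.le_mul_of_pos_left _ (by positivity)
          _ ≤ n := hmn
      calc numCopies H (hostM n h0 P P' H) * 2 ^ L
          ≤ (2 ^ L * m * m * (n ^ (q + 4) * n ^ (q + 4))) * 2 ^ L := Nat.mul_le_mul_right _ h1
        _ = (2 ^ L * m) * (2 ^ L * m) * (n ^ (q + 4) * n ^ (q + 4)) := by ring
        _ ≤ n * n * (n ^ (q + 4) * n ^ (q + 4)) := by (clear * - h3; gcongr)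
        _ = n ^ (2 * (q + 5)) := by ring
    exact_mod_cast h2

end Vale.Agent.P037G
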