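import Vale.Agent.P037.H88.Defs
import Vale.Agent.P037.Bdl.B1

/-!
The lines (rows or columns) of the host matrix: the old lines `Row L m` around the block `H5`, and
three kinds of extra lines for each of the other `q` positions of the pattern.
-/

namespace Vale.Agent.P037G

open Vale.Agent.P037.Mini

/-- classes of lines -/
inductive Cl (L q : ℕ) where
  | old (c : Cls L) : Cl L q
  | ex (e : Fin q) (k : Fin 3) : Cl L q
deriving DecidableEq, Fintype

/-- a line; `P` is the position of the block `H5` -/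
structure Ln (L m q : ℕ) (P : Fin (q + 1)) where
  cls : Cl L q
  par : Fin (2 ^ L * m)
deriving DecidableEq, Fintype

variable {L m q : ℕ} {P : Fin (q + 1)}

/-- position of a class -/
def nu (P : Fin (q + 1)) (c : Cl L q) : ℕ :=
  match c with
  | .old _ => P
  | .ex e _ => if (e : ℕ) < P then e else e + 1

/-- inner key -/
def Ln.ik (x : Ln L m q P) : ℕ ×ₗ (ℕ ×ₗ (ℕ ×ₗ ℕ)) :=
  match x.cls with
  | .old c => (⟨c, x.par⟩ : Row L m).key
  | .ex _ k => toLex ((k : ℕ), toLex ((x.par : ℕ), toLex (0, 0)))

def Ln.key (x : Ln L m q P) : ℕ ×ₗ (ℕ ×ₗ (ℕ ×ₗ (ℕ ×ₗ ℕ))) :=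
  toLex (nu P x.cls, x.ik)

theorem Ln.key_injective : Function.Injective (Ln.key (L := L) (m := m) (P := P)) := by
  rintro ⟨c, g⟩ ⟨c', g'⟩ h
  simp only [key, EmbeddingLike.apply_eq_iff_eq, Prod.mk.injEq] at h
  obtain ⟨h1, h2⟩ := h
  cases c with
  | old c =>
    cases c' with
    | old c' =>
      simp only [ik] at h2
      have := Row.key_injective h2
      simp only [Row.mk.injEq] at this
      rw [this.1, this.2]
    | ex e k =>
      exfalso
      simp only [nu] at h1
      split_ifs at h1 <;> omega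
  | ex e k =>
    cases c' with
    | old c' =>
      exfalso
      simp only [nu] at h1
      split_ifs at h1 <;> omega
    | ex e' k' =>
      have he : e = e' := by
        simp only [nu] at h1
        apply Fin.ext
        split_ifs at h1 <;> omega
      simp only [ik, EmbeddingLike.apply_eq_iff_eq, Prod.mk.injEq, and_true] at h2
      obtain ⟨h3, h4⟩ := h2
      rw [he, Fin.ext h3, Fin.ext h4]

instance : LinearOrder (Ln L m q P) := LinearOrder.lift' Ln.key Ln.key_injective

theorem Ln.lt_iff (x y : Ln L m q P) :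
    x < y ↔ nu P x.cls < nu P y.cls ∨ (nu P x.cls = nu P y.cls ∧ x.ik < y.ik) := by
  have : x < y ↔ x.key < y.key := Iff.rfl
  rw [this]
  simp only [Ln.key, Prod.Lex.toLex_lt_toLex]

theorem Ln.nu_le {x y : Ln L m q P} (h : x < y) : nu P x.cls ≤ nu P y.cls := by
  rw [Ln.lt_iff] at h
  omega

theorem nu_old_le (c : Cls L) : nu P (.old c : Cl L q) = P := rfl

theorem nu_ex_ne (e : Fin q) (k : Fin 3) : nu P (.ex e k : Cl L q) ≠ P := by
  unfold nu
  simp only
  split_ifs <;> omega

theorem nu_le (c : Cl L q) : nu P c ≤ q := by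
  cases c with
  | old c => simp only [nu]; omega
  | ex e k => simp only [nu]; split_ifs <;> omega

theorem nu_ex_inj {e e' : Fin q} {k k' : Fin 3}
    (h : nu P (.ex e k : Cl L q) = nu P (.ex e' k' : Cl L q)) : e = e' := by
  simp only [nu] at h
  apply Fin.ext
  split_ifs at h <;> omega

/-- the old lines -/
def emb (x : Row L m) : Ln L m q P := ⟨.old x.cls, x.par⟩

theorem emb_lt {x y : Row L m} : (emb x : Ln L m q P) < emb y ↔ x < y := by
  rw [Ln.lt_iff]
  have : x < y ↔ x.key < y.key := Iff.rfl
  rw [this]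
  simp only [emb, nu, Ln.ik, lt_self_iff_false, true_and, false_or]

theorem emb_injective : Function.Injective (emb (L := L) (m := m) (P := P)) := by
  rintro ⟨c, g⟩ ⟨c', g'⟩ h
  simp only [emb, Ln.mk.injEq, Cl.old.injEq] at h
  rw [h.1, h.2]

theorem exists_emb {x : Ln L m q P} (h : nu P x.cls = P) : ∃ y, emb y = x := by
  obtain ⟨c, g⟩ := x
  cases c with
  | old c => exact ⟨⟨c, g⟩, rfl⟩
  | ex e k => exact absurd h (nu_ex_ne e k)

/-- the position in the pattern of the `i`-th line of the block -/
def fi (P : Fin (q + 1)) (i : Fin 5) : Fin (q + 5) := ⟨P + i, by omega⟩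

/-- the position in the pattern of the extra line `e` -/
def ei (P : Fin (q + 1)) (e : Fin q) : Fin (q + 5) :=
  ⟨if (e : ℕ) < P then e else e + 5, by split_ifs <;> omega⟩

/-- role of an old class against extra lines of kind `k` -/
def rl (k : Fin 3) (c : Cls L) : Fin 5 :=
  match c with
  | .a _ => 0
  | .b _ => 1
  | .act s => if (k : ℕ) = 2 then 2 else if lev L s % 2 = (k : ℕ) then (if (s : ℕ) < L then 2 else 4)
      else 3
  | .S => 3
  | .T => 4

/-- the host relation -/
def base {P P' : Fin (q + 1)} (f : Bool) (H : Matrix (Fin (q + 5)) (Fin (q + 5)) Bool)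
    (x : Ln L m q P) (y : Ln L m q P') : Prop :=
  match x.cls, y.cls with
  | .old c, .old d => adj f (⟨c, x.par⟩ : Row L m) ⟨d, y.par⟩
  | .old c, .ex e k => H (fi P (rl k c)) (ei P' e) = true
  | .ex e k, .old d => H (ei P e) (fi P' (rl k d)) = true
  | .ex e _, .ex e' _ => H (ei P e) (ei P' e') = true

theorem base_symm {P P' : Fin (q + 1)} (f : Bool) (H : Matrix (Fin (q + 5)) (Fin (q + 5)) Bool)
    (x : Ln L m q P) (y : Ln L m q P') :
    base f H x y ↔ base (!f) H.transpose y x := by
  obtain ⟨c, g⟩ := x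
  obtain ⟨d, g'⟩ := y
  cases c <;> cases d
  · simp only [base]; exact adj_symm f _ _
  · exact Iff.rfl
  · exact Iff.rfl
  · exact Iff.rfl

theorem base_emb {P P' : Fin (q + 1)} (f : Bool) (H : Matrix (Fin (q + 5)) (Fin (q + 5)) Bool)
    (x y : Row L m) :
    base f H (emb x : Ln L m q P) (emb y : Ln L m q P') ↔ adj f x y := Iff.rfl

/-! ### splitting the positions -/

/-- decomposition of the positions -/
def dc (P : Fin (q + 1)) (i : Fin (q + 5)) : Fin 5 ⊕ Fin q :=
  if h : (i : ℕ) < P then .inr ⟨i, by omega⟩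
  else if h2 : (i : ℕ) < P + 5 then .inl ⟨i - P, by omega⟩ else .inr ⟨i - 5, by omega⟩

theorem dc_fi (P : Fin (q + 1)) (i : Fin 5) : dc P (fi P i) = .inl i := by
  unfold dc fi
  rw [dif_neg (by simp only; omega), dif_pos (by simp only; omega)]
  congr 1
  apply Fin.ext
  simp only
  omega

theorem dc_ei (P : Fin (q + 1)) (e : Fin q) : dc P (ei P e) = .inr e := by
  unfold dc ei
  by_cases h : (e : ℕ) < P
  · simp only [h, ↓reduceIte, ↓reduceDIte]
  · simp only [h, ↓reduceIte]
    rw [dif_neg (by omega), dif_neg (by omega)]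
    congr 1

theorem dc_inl {P : Fin (q + 1)} {i : Fin (q + 5)} {j : Fin 5} (h : dc P i = .inl j) :
    i = fi P j := by
  unfold dc at h
  split_ifs at h with h1 h2
  · simp only [Sum.inl.injEq] at h
    rw [← h]
    unfold fi
    apply Fin.ext
    simp only
    omega

theorem dc_inr {P : Fin (q + 1)} {i : Fin (q + 5)} {e : Fin q} (h : dc P i = .inr e) :
    i = ei P e := by
  unfold dc at h
  split_ifs at h with h1 h2
  · simp only [Sum.inr.injEq] at h
    rw [← h]
    unfold ei
    apply Fin.ext
    simp only [h1, ↓reduceIte]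
  · simp only [Sum.inr.injEq] at h
    rw [← h]
    unfold ei
    apply Fin.ext
    simp only
    rw [if_neg (by omega)]
    omega

end Vale.Agent.P037G
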