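import Vale.Agent.P037.H88.Quant
import Vale.Agent.P037.H88.Count

/-!
Almost every pattern is exponentially hard.
-/

namespace Vale.Agent.P037G

open Vale.Agent.P037 (Rigid HasBlock ExpHard PolynomialRemoval)

theorem hard_both {k t : ℕ} {H : Matrix (Fin k) (Fin k) Bool} (ht : 1 ≤ t) (hk : 11 * t ≤ k)
    (hB : HasBlock H) (hH : Rigid t H) : ExpHard H ∧ ¬ PolynomialRemoval H :=
  ⟨expHard ht hk hB hH, not_poly_of_expHard (by omega) (expHard ht hk hB hH)⟩

theorem almost_all {k : ℕ} (hk : 2 ^ 30 ≤ k) :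
    Nat.card {H : Matrix (Fin k) (Fin k) Bool // ¬ ExpHard H ∨ PolynomialRemoval H} ≤
      2 ^ (k ^ 2 - k / 12) := by
  refine le_trans ?_ (P037C.card_bad hk)
  rw [← Set.coe_ofPred, Nat.card_coe_set_eq]
  apply Set.ncard_le_ncard _ (Set.toFinite _)
  intro H hH
  simp only [Set.mem_ofPred_eq] at hH ⊢
  rintro ⟨h1, h2⟩
  have h3 := hard_both (t := k / 11) (by omega) (by omega) h1 h2
  tauto

end Vale.Agent.P037G
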