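import Vale.Agent.P037.H88.Main

/-!
A positive proportion of the patterns of each size `k ≥ 1000`.
-/

namespace Vale.Agent.P037C

open Vale.Agent.P037 (Rigid HasBlock H5 ExpHard PolynomialRemoval)

variable {k : ℕ}

theorem card_block (hk : 5 ≤ k) :
    2 ^ (k * k) ≤ {H : Matrix (Fin k) (Fin k) Bool | HasBlock H}.ncard * 2 ^ 25 := by
  classical
  let G : (Out k 1 → Bool) → {H : Matrix (Fin k) (Fin k) Bool | HasBlock H} := fun w =>
    ⟨fun i j => if h : (i : ℕ) < 5 * 1 ∧ (j : ℕ) < 5 * 1 then H5 ⟨i, by omega⟩ ⟨j, by omega⟩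
      else w ⟨(i, j), h⟩, 0, 0, by omega, by omega, fun i j => by
        refine (dif_pos ⟨by simp only; omega, by simp only; omega⟩).trans ?_
        have ei : (⟨0 + (i : ℕ), by omega⟩ : Fin 5) = i := Fin.ext (Nat.zero_add _)
        have ej : (⟨0 + (j : ℕ), by omega⟩ : Fin 5) = j := Fin.ext (Nat.zero_add _)
        exact congrArg₂ H5 ei ej⟩
  have hG : Function.Injective G := by
    intro v w h
    funext z
    have h1 := congrFun (congrFun (congrArg Subtype.val h) z.1.1) z.1.2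
    simp only [G] at h1
    rwa [dif_neg z.2, dif_neg z.2] at h1
  have h1 := Nat.card_le_card_of_injective G hG
  have h2 : Nat.card (Out k 1 → Bool) = 2 ^ Nat.card (Out k 1) := by
    rw [Nat.card_fun]
    simp
  rw [h2, Nat.card_coe_set_eq] at h1
  have h3 := card_out (k := k) (s := 1) (by omega)
  rw [← h3, pow_add]
  exact Nat.mul_le_mul_right _ h1

theorem small_cube' (hk : 1000 ≤ k) : k * k * (k + 1) * 2 * 2 ^ 26 ≤ 2 ^ (k / 11) := by
  obtain ⟨n, hn⟩ : ∃ n, n = k / 110 := ⟨_, rfl⟩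
  have h1 : n < 2 ^ n := Nat.lt_two_pow_self
  have h2 : k + 1 ≤ 2 ^ 7 * (n + 1) := by omega
  have h3 : k + 1 ≤ 2 ^ (7 + n) := by
    rw [pow_add]
    exact h2.trans (Nat.mul_le_mul_left _ h1)
  calc k * k * (k + 1) * 2 * 2 ^ 26
      ≤ 2 ^ (7 + n) * 2 ^ (7 + n) * 2 ^ (7 + n) * 2 * 2 ^ 26 := by
        have : k ≤ 2 ^ (7 + n) := by omega
        gcongr
    _ = 2 ^ (48 + 3 * n) := by
        rw [← pow_add, ← pow_add, ← pow_succ, ← pow_add]
        congr 1
        ring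
    _ ≤ _ := Nat.pow_le_pow_right (by norm_num) (by omega)

theorem card_good (hk : 1000 ≤ k) :
    2 ^ (k ^ 2 - 26) ≤ {H : Matrix (Fin k) (Fin k) Bool | HasBlock H ∧ Rigid (k / 11) H}.ncard := by
  have hsub : {H : Matrix (Fin k) (Fin k) Bool | HasBlock H} ⊆
      {H | HasBlock H ∧ Rigid (k / 11) H} ∪ {H | ¬ Rigid (k / 11) H} := by
    intro H hH
    simp only [Set.mem_ofPred_eq, Set.mem_union] at hH ⊢
    tauto
  have h1 := (Set.ncard_le_ncard hsub (Set.toFinite _)).trans (Set.ncard_union_le _ _)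
  have h2 := card_block (k := k) (by omega)
  have h3 := card_not_rigid (k := k) (k / 11)
  have h4 := small_cube' hk
  have h5 : {H : Matrix (Fin k) (Fin k) Bool | ¬ Rigid (k / 11) H}.ncard * 2 ^ 26 ≤
      2 ^ (k * k) := by
    have h6 : {H : Matrix (Fin k) (Fin k) Bool | ¬ Rigid (k / 11) H}.ncard * 2 ^ 26 *
        2 ^ (k / 11) ≤ 2 ^ (k * k) * 2 ^ (k / 11) := by
      calc _ = {H : Matrix (Fin k) (Fin k) Bool | ¬ Rigid (k / 11) H}.ncard * 2 ^ (k / 11) *
            2 ^ 26 := by ring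
        _ ≤ k * k * (k + 1) * (2 * 2 ^ (k * k)) * 2 ^ 26 := Nat.mul_le_mul_right _ h3
        _ = (k * k * (k + 1) * 2 * 2 ^ 26) * 2 ^ (k * k) := by ring
        _ ≤ 2 ^ (k / 11) * 2 ^ (k * k) := Nat.mul_le_mul_right _ h4
        _ = _ := by ring
    exact Nat.le_of_mul_le_mul_right h6 (by positivity)
  have hkk : 26 ≤ k ^ 2 := by nlinarith
  have h7 : 2 ^ (k ^ 2 - 26) * 2 ^ 26 = 2 ^ (k * k) := by
    rw [← pow_add]
    congr 1
    rw [pow_two] at hkk ⊢
    omega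
  have h8 : 2 ^ (k ^ 2 - 26) * 2 ^ 26 ≤
      {H : Matrix (Fin k) (Fin k) Bool | HasBlock H ∧ Rigid (k / 11) H}.ncard * 2 ^ 26 := by
    have h9 := Nat.mul_le_mul_right (2 ^ 26) h1
    rw [add_mul] at h9
    have h10 : 2 ^ (k * k) * 2 ≤ {H : Matrix (Fin k) (Fin k) Bool | HasBlock H}.ncard * 2 ^ 26 := by
      calc 2 ^ (k * k) * 2 ≤ {H : Matrix (Fin k) (Fin k) Bool | HasBlock H}.ncard * 2 ^ 25 * 2 :=
            Nat.mul_le_mul_right _ h2
        _ = _ := by ring
    rw [h7]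
    linarith only [h9, h10, h5]
  exact Nat.le_of_mul_le_mul_right h8 (by positivity)

theorem positive (hk : 1000 ≤ k) :
    2 ^ (k ^ 2 - 26) ≤
      Nat.card {H : Matrix (Fin k) (Fin k) Bool // ExpHard H ∧ ¬ PolynomialRemoval H} := by
  refine (card_good hk).trans ?_
  rw [← Set.coe_ofPred, Nat.card_coe_set_eq]
  apply Set.ncard_le_ncard _ (Set.toFinite _)
  intro H hH
  simp only [Set.mem_ofPred_eq] at hH ⊢
  exact P037G.hard_both (t := k / 11) (by omega) (by omega) hH.1 hH.2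

end Vale.Agent.P037C
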