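import Vale.Agent.P037.H88.Host

/-!
The exponential bound for every rigid pattern with a block `H5`.
-/

namespace Vale.Agent.P037G

open Vale.Agent.P037.Mini
open Vale.Agent.P037 (Rigid HasBlock ExpHard PolynomialRemoval IsCopy numCopies numDiff distFree)
open Filter Topology

/-- an exponential lower bound excludes a polynomial one -/
theorem not_poly_of_expHard {k : ℕ} {H : Matrix (Fin k) (Fin k) Bool} (hk : 1 ≤ k)
    (h : ExpHard H) : ¬ PolynomialRemoval H := by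
  rintro ⟨c, C, hc, hC, hpoly⟩
  have hk0 : (1 : ℝ) ≤ (k : ℝ) := by exact_mod_cast hk
  have hlog : 0 < Real.log 2 / 136 := div_pos (Real.log_pos (by norm_num)) (by norm_num)
  have hlim := tendsto_rpow_mul_exp_neg_mul_atTop_nhds_zero (2 * C) (Real.log 2 / 136) hlog
  obtain ⟨x, hx1, hx2⟩ := ((hlim.eventually (gt_mem_nhds hc)).and
    (eventually_ge_atTop (32 * (k : ℝ)))).exists
  have hx0 : 0 < x := by linarith
  obtain ⟨ε, hε⟩ : ∃ ε : ℝ, ε = 1 / x ^ 2 := ⟨_, rfl⟩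
  have hε0 : 0 < ε := by rw [hε]; positivity
  have hsq : √ε = 1 / x := by
    rw [hε, Real.sqrt_div' _ (by positivity), Real.sqrt_one, Real.sqrt_sq hx0.le]
  have hε1 : ε < 1 := by
    rw [hε, div_lt_one (by positivity)]
    nlinarith
  have hεk : ε ≤ 1 / (1024 * (k : ℝ) ^ 2) := by
    rw [hε]
    apply one_div_le_one_div_of_le (by positivity)
    nlinarith
  obtain ⟨n, hn⟩ := exists_nat_ge ((2 : ℝ) ^ (1 / √ε))
  obtain ⟨A, hA1, hA2⟩ := h ε hε0 hεk n hn
  have hnpos : (0 : ℝ) < (n : ℝ) := lt_of_lt_of_le (by positivity) hn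
  have hn1 : 1 ≤ n := by
    have : 0 < n := by exact_mod_cast hnpos
    omega
  have h1 := (hpoly n ε A hn1 hε0 hε1 hA1).trans hA2
  have h2 : c * ε ^ C ≤ 2 ^ (-(1 / (136 * √ε))) :=
    le_of_mul_le_mul_right h1 (by positivity)
  have h3 : (2 : ℝ) ^ (-(1 / (136 * √ε))) = Real.exp (-(Real.log 2 / 136) * x) := by
    rw [Real.rpow_def_of_pos (by norm_num), hsq]
    congr 1
    field_simp
  have h4 : ε ^ C = (x ^ (2 * C))⁻¹ := by
    rw [hε, one_div, Real.inv_rpow (by positivity), ← Real.rpow_natCast,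
      ← Real.rpow_mul hx0.le]
    norm_num
  rw [h3, h4] at h2
  have h5 : 0 < x ^ (2 * C) := Real.rpow_pos_of_pos hx0 _
  have h6 : c ≤ x ^ (2 * C) * Real.exp (-(Real.log 2 / 136) * x) := by
    calc c = x ^ (2 * C) * (c * (x ^ (2 * C))⁻¹) := by field_simp
      _ ≤ _ := mul_le_mul_of_nonneg_left h2 h5.le
  linarith

theorem expHard_gen {q t : ℕ} {P P' : Fin (q + 1)} {H : Matrix (Fin (q + 5)) (Fin (q + 5)) Bool}
    (ht : 1 ≤ t) (hk : 11 * t ≤ q + 5) (hH : Rigid t H)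
    (hF : ∀ i j, H (fi P i) (fi P' j) = pat i j) : ExpHard H := by
  intro ε h0 h1 n hn
  set s := √ε with hs
  have hq6 : (6 : ℝ) ≤ (q : ℝ) := by
    have : 6 ≤ q := by omega
    exact_mod_cast this
  have hs0 : 0 < s := Real.sqrt_pos.2 h0
  have hss : s ^ 2 = ε := Real.sq_sqrt h0.le
  have hkk : (((q + 5 : ℕ) : ℝ)) = (q : ℝ) + 5 := by push_cast; ring
  rw [hkk] at h1
  have hs1 : s ≤ 1 / (32 * ((q : ℝ) + 5)) := by
    apply le_of_sq_le_sq _ (by positivity)
    rw [hss]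
    refine h1.trans (le_of_eq ?_)
    field_simp
    norm_num
  obtain ⟨X, hX⟩ : ∃ X, X = 1 / (2 * s) := ⟨_, rfl⟩
  have hX1 : 16 * ((q : ℝ) + 5) ≤ X := by
    rw [hX, le_div_iff₀ (by positivity)]
    rw [le_div_iff₀ (by positivity)] at hs1
    nlinarith only [hs1]
  have hXs : 1 / s = 2 * X := by
    rw [hX]; (clear * - hs0; field_simp)
  have hX136 : 1 / (136 * s) = X / 68 := by
    rw [hX]; field_simp; norm_num
  have hXe : ε = 1 / (2 * X) ^ 2 := by
    rw [← hXs, ← hss]; field_simp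
  let L := ⌊(X - 35 - 3 * (q : ℝ)) / 34⌋₊
  have hLle : (L : ℝ) ≤ (X - 35 - 3 * (q : ℝ)) / 34 := Nat.floor_le (by linarith only [hX1, hq6])
  have hLlt : (X - 35 - 3 * (q : ℝ)) / 34 < (L : ℝ) + 1 := Nat.lt_floor_add_one _
  have hL68 : X / 68 ≤ (L : ℝ) := by linarith only [hX1, hLlt, hq6]
  have hL1 : 1 ≤ L := by
    have : (1 : ℝ) ≤ (L : ℝ) := by linarith only [hX1, hLlt, hq6]
    exact_mod_cast this
  have hnn : (34 * L + 35 + 3 * q) * 2 ^ L ≤ n := by
    have h2 : ((34 * L + 35 + 3 * q) * 2 ^ L : ℕ) ≤ 2 ^ (34 * L + 35 + 3 * q + L) := by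
      rw [pow_add _ (34 * L + 35 + 3 * q)]
      exact Nat.mul_le_mul_right _ (Nat.lt_two_pow_self).le
    have h3 : ((2 ^ (34 * L + 35 + 3 * q + L) : ℕ) : ℝ) ≤ n := by
      refine le_trans ?_ hn
      rw [hXs]
      push_cast
      rw [← Real.rpow_natCast]
      apply Real.rpow_le_rpow_of_exponent_le (by norm_num)
      push_cast
      linarith only [hLle, hX1, hq6]
    have h4 : 2 ^ (34 * L + 35 + 3 * q + L) ≤ n := by exact_mod_cast h3
    exact h2.trans h4
  obtain ⟨A, hA1, hA2⟩ := main_gen ht hk hH hF hL1 hnn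
  refine ⟨A, le_trans ?_ hA1, ?_⟩
  · rw [hXe]
    apply one_div_le_one_div_of_le (by positivity)
    apply pow_le_pow_left₀ (by positivity)
    linarith only [hLle]
  · rw [hX136]
    have h5 : (2 : ℝ) ^ (-(L : ℝ)) ≤ 2 ^ (-(X / 68)) :=
      Real.rpow_le_rpow_of_exponent_le (by norm_num) (by linarith only [hL68])
    calc (numCopies H A : ℝ) = 2 ^ (-(L : ℝ)) * ((numCopies H A : ℝ) * 2 ^ L) := by
          rw [Real.rpow_neg (by norm_num), Real.rpow_natCast]
          (clear * -; field_simp)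
      _ ≤ 2 ^ (-(X / 68)) * (n : ℝ) ^ (2 * (q + 5)) := by (clear * - h5 hA2; gcongr)

/-- every rigid pattern with a block `H5` is exponentially hard -/
theorem expHard {k t : ℕ} {H : Matrix (Fin k) (Fin k) Bool} (ht : 1 ≤ t) (hk : 11 * t ≤ k)
    (hB : HasBlock H) (hH : Rigid t H) : ExpHard H := by
  obtain ⟨a, b, ha, hb, hab⟩ := hB
  obtain ⟨q, rfl⟩ : ∃ q, k = q + 5 := ⟨k - 5, by omega⟩
  refine expHard_gen (P := ⟨a, by omega⟩) (P' := ⟨b, by omega⟩) ht hk hH fun i j => ?_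
  exact (hab i j).trans (H5_eq i j)

end Vale.Agent.P037G
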